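import Vale.Agent.P092.H534.Sp.FormSys
import Vale.Agent.P092.H337.NGb
import Vale.Agent.P092.H776.NG3

/-!
P092 (helper534), TEAM P, [P-NRM] part 4: near-wall mass for `Sp_4(k)` and all groups of isometries of
a form of Witt index 2 over a local field: along the first direction of a chain of length 2 (point
wall, line wall), the mass of the elements for which both gaps `L1`, `L2` are large is small.
-/

set_option linter.all false

open scoped InnerProductSpace ENNReal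
open Matrix Filter Topology MeasureTheory ContinuousLinearMap

namespace Vale.Agent.P092.H534.SpK

open Vale.Agent.P092.H761 (SharpData GChain big mem_big Geo Gaps CovFam)
open Vale.Agent.P092.H515 (GSys start2 Dec)
open Vale.Agent.P092.H538 (ind ind_pos ind_neg ind_nonneg abs_ind_le)
open Vale.Agent.P092.H160 Vale.Agent.P092.H432 Vale.Agent.P092.H132
open Vale.Agent.P092.H701 (HChain)
open Vale.Agent.P092.H933 (LocK)
open Vale.Agent.P092.H337.NG (en m2 mi en_pos m2_pos m2_mul en_nonneg m2_nonneg en_le_of m2_le_of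
  abs_log_en abs_log_m2 entry_le)
open Vale.Agent.P092.H859.CL (BB)
open Vale.Agent.P092.H303 (FormGroup)

/-! ### The gauges -/

section gauges

variable {k : Type} [NontriviallyNormedField k] {n : ℕ}

/-- `log (σ₁ / σ₂)` up to a constant -/
noncomputable def L1 (g : SpecialLinearGroup (Fin n) k) : ℝ :=
  2 * Real.log (en g.1) - Real.log (m2 g.1)

/-- `2 log σ₂` up to a constant (`= log (σ₂ / σ₃)` for symplectic matrices of size 4) -/
noncomputable def L2 (g : SpecialLinearGroup (Fin n) k) : ℝ :=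
  2 * Real.log (m2 g.1) - 2 * Real.log (en g.1)

theorem L_quasi (hn : 2 ≤ n) (s u : SpecialLinearGroup (Fin n) k) :
    ∃ C : ℝ, ∀ x : SpecialLinearGroup (Fin n) k,
      |L1 (s * x * u) - L1 x| ≤ C ∧ |L2 (s * x * u) - L2 x| ≤ C := by
  obtain ⟨C1, hC1⟩ : ∃ C : ℝ, ∀ x : SpecialLinearGroup (Fin n) k,
      |Real.log (en (s * x * u).1) - Real.log (en x.1)| ≤ C := ⟨_, fun x => abs_log_en hn s x u⟩
  obtain ⟨C2, hC2⟩ : ∃ C : ℝ, ∀ x : SpecialLinearGroup (Fin n) k,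
      |Real.log (m2 (s * x * u).1) - Real.log (m2 x.1)| ≤ C := ⟨_, fun x => abs_log_m2 hn s x u⟩
  refine ⟨2 * C1 + 2 * C2, fun x => ?_⟩
  have h1 := abs_le.1 (hC1 x)
  have h2 := abs_le.1 (hC2 x)
  have h3 := (abs_nonneg _).trans (hC1 x)
  have h4 := (abs_nonneg _).trans (hC2 x)
  unfold L1 L2
  constructor
  · rw [abs_le]; constructor <;> linarith [h1.1, h1.2, h2.1, h2.2]
  · rw [abs_le]; constructor <;> linarith [h1.1, h1.2, h2.1, h2.2]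

theorem mn2_eq (A : Matrix (Fin n) (Fin n) k) : H776.NG.mn2 A = m2 A := by
  unfold H776.NG.mn2 m2 H776.NG.mi mi
  congr 1
  funext i i' j j'
  rw [mul_comm (A i j') (A i' j)]

theorem nmx_eq (A : Matrix (Fin n) (Fin n) k) : H776.NG.nmx A = en A := rfl

/-- minors of a diagonal matrix -/
theorem m2_diag_le {a : Fin n → k} (hn : 2 ≤ n) (ha : Antitone fun i => ‖a i‖) :
    m2 (diagonal a) ≤ ‖a ⟨0, by omega⟩‖ * ‖a ⟨1, by omega⟩‖ := by
  have h0 : 0 ≤ ‖a ⟨0, by omega⟩‖ * ‖a ⟨1, by omega⟩‖ := by positivity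
  have key : ∀ i i' : Fin n, i ≠ i' → ‖a i * a i'‖ ≤ ‖a ⟨0, by omega⟩‖ * ‖a ⟨1, by omega⟩‖ := by
    have h1 : ∀ i i' : Fin n, i < i' →
        ‖a i * a i'‖ ≤ ‖a ⟨0, by omega⟩‖ * ‖a ⟨1, by omega⟩‖ := by
      intro i i' hii
      rw [norm_mul]
      refine mul_le_mul (ha (Fin.mk_le_of_le_val (Nat.zero_le _))) (ha ?_) (norm_nonneg _)
        (norm_nonneg _)
      rw [Fin.le_def]
      have : (i : ℕ) < i' := hii
      change 1 ≤ (i' : ℕ)
      omega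
    intro i i' hii
    rcases lt_or_gt_of_ne hii with h | h
    · exact h1 i i' h
    · rw [mul_comm]
      exact h1 i' i h
  refine m2_le_of h0 fun i i' j j' => ?_
  unfold mi
  by_cases hii : i = i'
  · subst hii
    rw [sub_self, norm_zero]
    exact h0
  · by_cases h1 : i = j ∧ i' = j'
    · obtain ⟨rfl, rfl⟩ := h1
      rw [diagonal_apply_eq, diagonal_apply_eq, diagonal_apply_ne' _ hii, zero_mul, sub_zero]
      exact key _ _ hii
    · by_cases h2 : i' = j ∧ i = j'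
      · obtain ⟨rfl, rfl⟩ := h2
        rw [diagonal_apply_ne _ hii, zero_mul, zero_sub, norm_neg, diagonal_apply_eq,
          diagonal_apply_eq]
        exact key _ _ (Ne.symm hii)
      · have e1 : diagonal a i j * diagonal a i' j' = 0 := by
          by_cases h : i = j
          · have h' : i' ≠ j' := fun h' => h1 ⟨h, h'⟩
            rw [diagonal_apply_ne _ h', mul_zero]
          · rw [diagonal_apply_ne _ h, zero_mul]
        have e2 : diagonal a i' j * diagonal a i j' = 0 := by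
          by_cases h : i' = j
          · have h' : i ≠ j' := fun h' => h2 ⟨h, h'⟩
            rw [diagonal_apply_ne _ h', mul_zero]
          · rw [diagonal_apply_ne _ h, zero_mul]
        rw [e1, e2, sub_zero, norm_zero]
        exact h0

theorem log_dom {c1 c2 c3 c4 E m x y : ℝ} (hc1 : 0 < c1) (hc2 : 0 < c2) (hc3 : 0 < c3)
    (hc4 : 0 < c4) (hE : 0 < E) (hm : 0 < m) (hx : 0 < x) (hy : 0 < y) (h1 : E ≤ c1 * x)
    (h2 : x ≤ c2 * E) (h3 : x * y ≤ c3 * m) (h4 : m ≤ c4 * (x * y)) :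
    2 * Real.log E - Real.log m ≤ Real.log x - Real.log y +
      (2 * Real.log c1 + Real.log c3) ∧
    2 * Real.log m - 2 * Real.log E ≤ 2 * Real.log y +
      (2 * Real.log c4 + 2 * Real.log c2) := by
  have l1 := Real.log_le_log hE h1
  rw [Real.log_mul hc1.ne' hx.ne'] at l1
  have l2 := Real.log_le_log hx h2
  rw [Real.log_mul hc2.ne' hE.ne'] at l2
  have l3 := Real.log_le_log (mul_pos hx hy) h3
  rw [Real.log_mul hx.ne' hy.ne', Real.log_mul hc3.ne' hm.ne'] at l3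
  have l4 := Real.log_le_log hm h4
  rw [Real.log_mul hc4.ne' (mul_pos hx hy).ne', Real.log_mul hx.ne' hy.ne'] at l4
  constructor <;> linarith

theorem real_aux {a b c d e D P n : ℝ} (hn : 0 ≤ n) (hD : 0 ≤ D) (hP : 0 ≤ P) (ha : a ≤ n * (b * c))
    (hb : b ≤ n * (d * e)) (hc : c ≤ D) (hd : d ≤ D) (he : e ≤ P) (h0 : 0 ≤ c) (h1 : 0 ≤ d)
    (h2 : 0 ≤ e) : a ≤ n * (n * D * D) * P := by
  have h3 : d * e ≤ D * P := mul_le_mul hd he h2 hD
  have h4 : b ≤ n * (D * P) := hb.trans (mul_le_mul_of_nonneg_left h3 hn)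
  have h5 : b * c ≤ n * (D * P) * D :=
    mul_le_mul h4 hc h0 (mul_nonneg hn (mul_nonneg hD hP))
  refine ha.trans ((mul_le_mul_of_nonneg_left h5 hn).trans (le_of_eq ?_))
  ring

theorem m2_bd {C : ℝ} (hC0 : 0 ≤ C) {κ : Matrix (Fin n) (Fin n) k} (h1 : ∀ i j, ‖κ i j‖ ≤ C) :
    m2 κ ≤ 2 * C ^ 2 := by
  have e1 : en κ ≤ C := en_le_of hC0 h1
  have e2 := en_nonneg κ
  refine (H337.NG.m2_le κ).trans ?_
  have := pow_le_pow_left₀ e2 e1 2
  linarith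

/-- upper bound of the minors -/
theorem m2_dec_le (hn : 2 ≤ n) {C : ℝ} (hC0 : 0 ≤ C) {κ κ' : Matrix (Fin n) (Fin n) k}
    {a : Fin n → k} (h1 : ∀ i j, ‖κ i j‖ ≤ C) (h2 : ∀ i j, ‖κ' i j‖ ≤ C)
    (ha : Antitone fun i => ‖a i‖) :
    m2 (κ * diagonal a * κ') ≤ (n : ℝ) ^ 2 * ((n : ℝ) ^ 2 * (2 * C ^ 2) * (2 * C ^ 2)) *
      (‖a ⟨0, by omega⟩‖ * ‖a ⟨1, by omega⟩‖) :=
  real_aux (by positivity) (by positivity) (by positivity) (m2_mul _ _) (m2_mul _ _)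
    (m2_bd hC0 h2) (m2_bd hC0 h1) (m2_diag_le hn ha) (m2_nonneg _) (m2_nonneg _) (m2_nonneg _)

/-- **The gauges against a bounded Cartan decomposition.** -/
theorem dom_dec (hn : 2 ≤ n) (M : ℝ) : ∃ K : ℝ, ∀ (A κ κi κ' κi' : Matrix (Fin n) (Fin n) k)
    (a : Fin n → k), Dec M A κ κi κ' κi' a →
    2 * Real.log (en A) - Real.log (m2 A) ≤
      Real.log ‖a ⟨0, by omega⟩‖ - Real.log ‖a ⟨1, by omega⟩‖ + K ∧
    2 * Real.log (m2 A) - 2 * Real.log (en A) ≤ 2 * Real.log ‖a ⟨1, by omega⟩‖ + K := by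
  obtain ⟨C, hC⟩ : ∃ C, C = max M 1 := ⟨_, rfl⟩
  have hC1 : 1 ≤ C := hC ▸ le_max_right _ _
  have hCM : M ≤ C := hC ▸ le_max_left _ _
  have hC0 : 0 ≤ C := zero_le_one.trans hC1
  have hCp : 0 < C := zero_lt_one.trans_le hC1
  have hnp : (0 : ℝ) < n := by exact_mod_cast (by omega : 0 < n)
  obtain ⟨c1, hc1⟩ : ∃ c : ℝ, c = n * C ^ 2 := ⟨_, rfl⟩
  obtain ⟨c2, hc2⟩ : ∃ c : ℝ, c = n ^ 2 * C ^ 2 := ⟨_, rfl⟩
  obtain ⟨c3, hc3⟩ : ∃ c : ℝ, c = n ^ 4 * C ^ 4 := ⟨_, rfl⟩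
  obtain ⟨c4, hc4⟩ : ∃ c : ℝ, c = n ^ 2 * (n ^ 2 * (2 * C ^ 2) * (2 * C ^ 2)) := ⟨_, rfl⟩
  have q1 : 0 < c1 := by rw [hc1]; positivity
  have q2 : 0 < c2 := by rw [hc2]; positivity
  have q3 : 0 < c3 := by rw [hc3]; positivity
  have q4 : 0 < c4 := by rw [hc4]; positivity
  refine ⟨max (2 * Real.log c1 + Real.log c3) (2 * Real.log c4 + 2 * Real.log c2),
    fun A κ κi κ' κi' a h => ?_⟩
  have hd : H776.NG.Dec A a C := ⟨κ, κi, κ', κi', h.mul, h.mul', fun i j =>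
    ⟨(h.le i j).trans hCM, (h.lei i j).trans hCM, (h.le' i j).trans hCM, (h.lei' i j).trans hCM⟩,
    h.ne, h.eq⟩
  obtain ⟨b1, b2, b3⟩ := hd.bounds hC0
  have h01 : (⟨0, by omega⟩ : Fin n) ≠ ⟨1, by omega⟩ := fun e => by
    have := Fin.mk.inj e
    omega
  have d1 := b1 ‖a ⟨0, by omega⟩‖ fun i => h.anti (Fin.mk_le_of_le_val (Nat.zero_le _))
  have d2 := b2 ⟨0, by omega⟩
  have d3 := b3 ⟨0, by omega⟩ ⟨1, by omega⟩ h01
  have d4 : m2 A ≤ c4 * (‖a ⟨0, by omega⟩‖ * ‖a ⟨1, by omega⟩‖) := by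
    rw [h.eq, hc4]
    exact m2_dec_le hn hC0 (fun i j => (h.le i j).trans hCM) (fun i j => (h.le' i j).trans hCM)
      h.anti
  rw [nmx_eq, ← hc1] at d1
  rw [nmx_eq, ← hc2] at d2
  rw [mn2_eq, norm_mul, ← hc3] at d3
  have p0 : 0 < ‖a ⟨0, by omega⟩‖ := norm_pos_iff.2 (h.ne _)
  have p1 : 0 < ‖a ⟨1, by omega⟩‖ := norm_pos_iff.2 (h.ne _)
  have pe : 0 < en A := by
    by_contra h0
    push Not at h0
    have := mul_nonpos_of_nonneg_of_nonpos q2.le h0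
    linarith
  have pm : 0 < m2 A := by
    by_contra h0
    push Not at h0
    have h4 := mul_nonpos_of_nonneg_of_nonpos q3.le h0
    have h5 := mul_pos p0 p1
    linarith
  obtain ⟨r1, r2⟩ := log_dom q1 q2 q3 q4 pe pm p0 p1 d1 d2 d3 d4
  exact ⟨r1.trans (add_le_add_right (le_max_left _ _) _),
    r2.trans (add_le_add_right (le_max_right _ _) _)⟩

end gauges

/-! ### The target -/

section target

variable {Γ : Type} [Group Γ] {k : Type} [NontriviallyNormedField k] {N : ℕ}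

/-- Homomorphisms modulo scalars. -/
def PHm (q : Γ → SpecialLinearGroup (Fin N) k) : Prop :=
  ∀ γ γ', ∃ c : k, (q (γ * γ')).1 = c • (q γ * q γ').1

theorem PHm.of_hom (q : Γ →* SpecialLinearGroup (Fin N) k) : PHm q := fun γ γ' =>
  ⟨1, by rw [map_mul, one_smul]⟩

theorem PHm.quasi (hN : 0 < N) {q : Γ → SpecialLinearGroup (Fin N) k} (hq : PHm q) (γ γ' : Γ) :
    en (q (γ * γ')).1 = en (q γ * q γ').1 ∧ m2 (q (γ * γ')).1 = m2 (q γ * q γ').1 := by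
  obtain ⟨c, hc⟩ := hq γ γ'
  have hc1 : ‖c‖ = 1 := by
    have h1 := congrArg Matrix.det hc
    rw [(q (γ * γ')).2, Matrix.det_smul, (q γ * q γ').2, mul_one, Fintype.card_fin] at h1
    have h2 := congrArg norm h1
    rw [norm_one, norm_pow] at h2
    exact (pow_eq_one_iff_of_nonneg (norm_nonneg _) (by omega)).1 h2.symm
  rw [hc]
  constructor
  · unfold en
    have e : (fun i j => (c • (q γ * q γ').1) i j : Fin N → Fin N → k) =
        c • (fun i j => (q γ * q γ').1 i j : Fin N → Fin N → k) := rfl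
    rw [e, norm_smul, hc1, one_mul]
  · unfold m2
    have e : (fun i i' j j' => mi (c • (q γ * q γ').1) i i' j j' :
        Fin N → Fin N → Fin N → Fin N → k) =
        (c * c) • (fun i i' j j' => mi (q γ * q γ').1 i i' j j' :
          Fin N → Fin N → Fin N → Fin N → k) := by
      funext i i' j j'
      simp only [mi, Matrix.smul_apply, smul_eq_mul, Pi.smul_apply]
      ring
    rw [e, norm_smul, norm_mul, hc1, one_mul, one_mul]

theorem PHm.L_mul (hN : 0 < N) {q : Γ → SpecialLinearGroup (Fin N) k} (hq : PHm q) (γ γ' : Γ) :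
    L1 (q (γ * γ')) = L1 (q γ * q γ') ∧ L2 (q (γ * γ')) = L2 (q γ * q γ') := by
  obtain ⟨h1, h2⟩ := hq.quasi hN γ γ'
  unfold L1 L2
  rw [h1, h2]
  exact ⟨rfl, rfl⟩

/-- Quasi-invariance. -/
theorem L_quasi_ph (hN : 2 ≤ N) {q : Γ → SpecialLinearGroup (Fin N) k} (hq : PHm q) (s u : Γ) :
    ∃ C : ℝ, ∀ x, |L1 (q (s * x * u)) - L1 (q x)| ≤ C ∧ |L2 (q (s * x * u)) - L2 (q x)| ≤ C := by
  have hN0 : 0 < N := by omega
  obtain ⟨C1, hC1⟩ := L_quasi (k := k) hN (q s) 1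
  obtain ⟨C2, hC2⟩ := L_quasi (k := k) hN 1 (q u)
  refine ⟨C1 + C2, fun x => ?_⟩
  obtain ⟨e1, e2⟩ := hq.L_mul hN0 (s * x) u
  obtain ⟨e3, e4⟩ := hq.L_mul hN0 s x
  have h1 := hC1 (q x)
  have h2 := hC2 (q (s * x))
  rw [mul_one] at h1
  rw [one_mul] at h2
  rw [e1, e2]
  constructor
  · calc |L1 (q (s * x) * q u) - L1 (q x)| =
        |(L1 (q (s * x) * q u) - L1 (q (s * x))) + (L1 (q s * q x) - L1 (q x))| := by
          rw [e3]; ring_nf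
      _ ≤ _ := (abs_add_le _ _).trans (by linarith [h1.1, h2.1])
  · calc |L2 (q (s * x) * q u) - L2 (q x)| =
        |(L2 (q (s * x) * q u) - L2 (q (s * x))) + (L2 (q s * q x) - L2 (q x))| := by
          rw [e4]; ring_nf
      _ ≤ _ := (abs_add_le _ _).trans (by linarith [h1.2, h2.2])

theorem scalar_fin (hN : 0 < N) (X : Subgroup (SpecialLinearGroup (Fin N) k)) (Z : Subgroup X)
    (hZ : ∀ z ∈ Z, ∃ c : k, z.1.1 = c • (1 : Matrix (Fin N) (Fin N) k)) : Finite Z := by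
  classical
  have h0 : {c : k | c ^ N = 1}.Finite := by
    refine ((Polynomial.nthRoots N (1 : k)).toFinset.finite_toSet).subset fun c hc => ?_
    rw [Finset.mem_coe, Multiset.mem_toFinset, Polynomial.mem_nthRoots hN]
    exact hc
  have : Finite {c : k | c ^ N = 1} := h0
  refine Finite.of_injective (β := {c : k | c ^ N = 1})
    (fun z => ⟨z.1.1.1 ⟨0, hN⟩ ⟨0, hN⟩, ?_⟩) ?_
  · obtain ⟨c, hc⟩ := hZ z.1 z.2
    have e : z.1.1.1 ⟨0, hN⟩ ⟨0, hN⟩ = c := by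
      rw [hc, Matrix.smul_apply, Matrix.one_apply_eq, smul_eq_mul, mul_one]
    rw [Set.mem_setOf_eq, e]
    have h1 := z.1.1.2
    rw [hc, Matrix.det_smul, Matrix.det_one, mul_one, Fintype.card_fin] at h1
    exact h1
  · intro z z' hzz
    obtain ⟨c, hc⟩ := hZ z.1 z.2
    obtain ⟨c', hc'⟩ := hZ z'.1 z'.2
    have e : z.1.1.1 ⟨0, hN⟩ ⟨0, hN⟩ = z'.1.1.1 ⟨0, hN⟩ ⟨0, hN⟩ := congrArg Subtype.val hzz
    have e1 : z.1.1.1 ⟨0, hN⟩ ⟨0, hN⟩ = c := by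
      rw [hc, Matrix.smul_apply, Matrix.one_apply_eq, smul_eq_mul, mul_one]
    have e2 : z'.1.1.1 ⟨0, hN⟩ ⟨0, hN⟩ = c' := by
      rw [hc', Matrix.smul_apply, Matrix.one_apply_eq, smul_eq_mul, mul_one]
    apply Subtype.ext
    apply Subtype.ext
    apply Subtype.ext
    rw [hc, hc', ← e1, ← e2, e]

/-- the scalars of `X` -/
def scZ (X : Subgroup (SpecialLinearGroup (Fin N) k)) : Subgroup X where
  carrier := {z | ∃ c : k, z.1.1 = c • (1 : Matrix (Fin N) (Fin N) k)}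
  one_mem' := ⟨1, by rw [one_smul]; rfl⟩
  mul_mem' := by
    rintro z z' ⟨c, hc⟩ ⟨c', hc'⟩
    refine ⟨c * c', ?_⟩
    change z.1.1 * z'.1.1 = _
    rw [hc, hc', Matrix.smul_mul, Matrix.one_mul, smul_smul]
  inv_mem' := by
    rintro z ⟨c, hc⟩
    refine ⟨c⁻¹, ?_⟩
    change (z.1⁻¹).1 = _
    have h1 : z.1.1 * (z.1⁻¹).1 = 1 := congrArg Subtype.val (mul_inv_cancel z.1)
    rw [hc, Matrix.smul_mul, Matrix.one_mul] at h1
    by_cases h0 : c = 0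
    · rw [h0, zero_smul] at h1
      rw [h0, _root_.inv_zero, zero_smul]
      have h2 : (z.1⁻¹).1 = (z.1⁻¹).1 * 1 := (Matrix.mul_one _).symm
      rw [h2, ← h1, Matrix.mul_zero]
    · rw [← h1, smul_smul, inv_mul_cancel₀ h0, one_smul]

theorem scZ_center (X : Subgroup (SpecialLinearGroup (Fin N) k)) :
    scZ X ≤ Subgroup.center X := by
  rintro z ⟨c, hc⟩
  rw [Subgroup.mem_center_iff]
  intro x
  apply Subtype.ext
  apply Subtype.ext
  change x.1.1 * z.1.1 = z.1.1 * x.1.1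
  rw [hc, Matrix.mul_smul, Matrix.smul_mul, Matrix.one_mul, Matrix.mul_one]

variable [ProperSpace k]

/-- **The gaps of a function `q : Γ → SL_N(k)` which is a homomorphism modulo scalars and preserves a
form of Witt index at most 2**: two classes, both large if `L1`, `L2` are large. -/
theorem exists_gapsP (hk : LocK k) (h4 : 4 ≤ N) {q : Γ → SpecialLinearGroup (Fin N) k}
    (hq : PHm q) {σ : k →+* k} (hσ : ∀ x, ‖σ x‖ = ‖x‖) {J : Matrix (Fin N) (Fin N) k}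
    (hJ : J.det ≠ 0) (hform : ∀ γ, (q γ).1 * J * ((q γ).1.map σ)ᵀ = J)
    (hiso : ∀ v : Fin (2 + 1) → Fin N → k, LinearIndependent k v →
      ∃ i j, v i ⬝ᵥ (J *ᵥ (fun l => σ (v j l))) ≠ 0)
    (disc : ∀ C : ℝ, {γ : Γ | en (q γ).1 ≤ C}.Finite) :
    ∃ (I : Type) (_ : Fintype I) (gp : I → Γ → ℝ) (w : Γ → ℝ) (cl : I → Fin 2), GSys gp w ∧
      (∀ R : ℝ, ∃ R' : ℝ, ∀ i j, cl i = cl j → ∀ g, gp i g ≤ R → gp j g ≤ R') ∧
      (∀ R : ℝ, {g | w g ≤ R}.Finite) ∧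
      ∀ R : ℝ, ∃ r : ℝ, ∀ γ, r < L1 (q γ) → r < L2 (q γ) →
        ∃ x y : I, cl x ≠ cl y ∧ R ≤ gp x γ ∧ R ≤ gp y γ := by
  have hN : 0 < N := by omega
  obtain ⟨X, hX⟩ : ∃ X : Subgroup (SpecialLinearGroup (Fin N) k), X = FormGroup σ J := ⟨_, rfl⟩
  have hXm : ∀ g ∈ X, g.1 * J * (g.1.map σ)ᵀ = J := fun g hg => by rw [hX] at hg; exact hg
  have hqX : ∀ γ, q γ ∈ X := fun γ => by rw [hX]; exact hform γ
  obtain ⟨I, hI, gp, w, cl, hs, hcomp, hw, c, C, D, hc, hd⟩ := form_sys (G := X)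
    (m := fun g => g.1.1) (q := 2) hk hN (by omega) (fun g h => rfl) hσ hJ
    (fun g => hXm g.1 g.2) hiso
  obtain ⟨s, hs'⟩ : ∃ s : Γ → X, s = fun γ => ⟨q γ, hqX γ⟩ := ⟨_, rfl⟩
  have hsq : ∀ γ, (s γ).1 = q γ := fun γ => by rw [hs']
  have hph : ∀ a b, ∃ z ∈ scZ X, s (a * b) = z * (s a * s b) := by
    intro a b
    obtain ⟨e, he⟩ := hq a b
    refine ⟨s (a * b) * (s a * s b)⁻¹, ⟨e, ?_⟩, by group⟩
    change (s (a * b)).1.1 * (((s a).1 * (s b).1)⁻¹).1 = _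
    have e1 : (q a * q b).1 * ((q a * q b)⁻¹).1 = 1 :=
      congrArg Subtype.val (mul_inv_cancel (q a * q b))
    rw [hsq, hsq, hsq, he, Matrix.smul_mul, e1]
  obtain ⟨w', hs2, hw'⟩ := gsys_ph hs (scZ X) (scZ_center X)
    (scalar_fin hN X _ fun z hz => hz) s hph
  refine ⟨I, hI, fun j γ => gp j (s γ), w', cl, hs2, fun R => ?_, fun R => ?_, fun R => ?_⟩
  · obtain ⟨R', hR'⟩ := hcomp R
    exact ⟨R', fun i j hij g hg => hR' i j hij _ hg⟩
  · obtain ⟨R', hR'⟩ := hw R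
    refine (disc (max R' 0)).subset fun γ hγ => en_le_of (le_max_right _ _) fun i j => ?_
    have h1 := hR' (s γ) ((hw' γ).trans hγ) i j
    rw [hsq] at h1
    exact h1.trans (le_max_left _ _)
  · obtain ⟨K, hK⟩ := dom_dec (k := k) (n := N) (by omega) C
    refine ⟨max ((R + C) / c + K) (2 * ((R + C) / c) + 2 * D + K), fun γ h1 h2 => ?_⟩
    obtain ⟨κ, κi, κ', κi', a, hdec, hD, hgp⟩ := hd (s γ)
    obtain ⟨d1, d2⟩ := hK _ _ _ _ _ _ hdec
    rw [hsq] at d1 d2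
    obtain ⟨x, hx, hx'⟩ := hgp 0
    obtain ⟨y, hy, hy'⟩ := hgp 1
    have e2 := hD ⟨2, by omega⟩ (by simp)
    have g1 : (R + C) / c < Real.log ‖a ⟨0, by omega⟩‖ - Real.log ‖a ⟨1, by omega⟩‖ := by
      have := (le_max_left _ _).trans_lt h1
      unfold L1 at this
      linarith
    have g2 : (R + C) / c < Real.log ‖a ⟨1, by omega⟩‖ - Real.log ‖a ⟨2, by omega⟩‖ := by
      have := (le_max_right _ _).trans_lt h2
      unfold L2 at this
      linarith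
    have m1 := mul_lt_mul_of_pos_left g1 hc
    have m2' := mul_lt_mul_of_pos_left g2 hc
    rw [mul_div_cancel₀ _ hc.ne'] at m1 m2'
    refine ⟨x, y, ?_, ?_, ?_⟩
    · rw [hx, hy]; decide
    · have h3 : c * (Real.log ‖a ⟨0, by omega⟩‖ - Real.log ‖a ⟨1, by omega⟩‖) - C ≤ gp x (s γ) :=
        hx'
      linarith
    · have h3 : c * (Real.log ‖a ⟨1, by omega⟩‖ - Real.log ‖a ⟨2, by omega⟩‖) - C ≤ gp y (s γ) :=
        hy'
      linarith

end target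

/-! ### Near-wall mass -/

section abs

variable {Γ 𝔾 : Type} [Group Γ] [DecidableEq Γ] [Group 𝔾] {t : ℝ}
  {mass : 𝔾 → (Γ → ℝ) → ℝ} {Cpt : Set 𝔾 → Prop} {Ping : (p : ℕ) → (Fin p → 𝔾) → Prop}
  {m : ℕ} {b : Fin m → ℕ → 𝔾} {𝒦 : Fin m → Set 𝔾} {r : ℕ}

/-- **Near-wall, gaps in `r` classes**: along the first direction of a chain of length `≥ r`, the
mass of the elements with two large classes of gaps is small. -/
theorem nw_cls (h : SharpData t mass Cpt Ping) (hch : GChain Cpt Ping m b 𝒦) (hm : 0 < m)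
    (hrm : r ≤ m) {I : Type} [Fintype I] {gp : I → Γ → ℝ} {w : Γ → ℝ} {cl : I → Fin r}
    (hs : GSys gp w)
    (hcomp : ∀ R : ℝ, ∃ R' : ℝ, ∀ i j, cl i = cl j → ∀ g, gp i g ≤ R → gp j g ≤ R')
    (hfin : ∀ R : ℝ, {g | w g ≤ R}.Finite) {ε : ℝ} (hε : 0 < ε) :
    ∃ R : ℝ, ∀ N, mass (b ⟨0, hm⟩ N) (ind fun g => ∃ x y : I, cl x ≠ cl y ∧ R ≤ gp x g ∧
      R ≤ gp y g) ≤ ε := by
  classical
  have hg := hs.gaps hfin cl hcomp
  obtain ⟨R, hR⟩ := start2 h hg (fun θ _ _ => hs.geo' hfin θ) hch hrm hm hε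
  refine ⟨R, fun N => (h.ind_mono _ ?_).trans (hR N)⟩
  rintro g ⟨x, y, hxy, h1, h2⟩
  exact Finset.one_lt_card.2 ⟨cl x, mem_big.2 ⟨x, rfl, h1⟩, cl y, mem_big.2 ⟨y, rfl, h2⟩, hxy⟩

end abs

section nrm

variable {E : Type} [Group E] [TopologicalSpace E] [IsTopologicalGroup E] [LocallyCompactSpace E]
  [SecondCountableTopology E] [T2Space E] [MeasurableSpace E] [BorelSpace E]
  (Λ : Subgroup E) [DiscreteTopology Λ] [MeasurableSpace (E ⧸ Λ)] [BorelSpace (E ⧸ Λ)]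
  (ν : Measure (E ⧸ Λ)) [IsProbabilityMeasure ν] (hν : ∀ g : E, ν.map (fun x => g • x) = ν)
  {Γ Q ι : Type} [Group Γ] [Countable Γ] [Group Q] [Countable Q] [Fintype ι] {t : ℝ}
  {R : Λ → (Ell2 ((Γ × Q) × ι) →L[ℂ] Ell2 ((Γ × Q) × ι))}
  {E0 : Set Λ → (Ell2 ((Γ × Q) × ι) →L[ℂ] Ell2 ((Γ × Q) × ι))}
  {N : ℕ} {k : Type} [NontriviallyNormedField k] [ProperSpace k]

/-- `nrm` along one direction of a chain of length 2. -/
theorem nrm_chainP (hR : ARep t R) (hE : CovFam R E0)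
    (hq : ∀ A (q : Q), E0 A * lx ((1 : Γ), q) = lx ((1 : Γ), q) * E0 A)
    {m : ℕ} (Ch : HChain E m) (hm : 0 < m) (h2m : 2 ≤ m) (hk : LocK k) (h4 : 4 ≤ N)
    {q : Γ → SpecialLinearGroup (Fin N) k} (hph : PHm q) {σ : k →+* k} (hσ : ∀ x, ‖σ x‖ = ‖x‖)
    {J : Matrix (Fin N) (Fin N) k} (hJ : J.det ≠ 0)
    (hform : ∀ γ, (q γ).1 * J * ((q γ).1.map σ)ᵀ = J)
    (hiso : ∀ v : Fin (2 + 1) → Fin N → k, LinearIndependent k v →
      ∃ i j, v i ⬝ᵥ (J *ᵥ (fun l => σ (v j l))) ≠ 0)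
    (disc : ∀ C : ℝ, {γ : Γ | en (q γ).1 ≤ C}.Finite) {ε : ℝ} (hε : 0 < ε) :
    ∃ r : ℝ, ∀ n,
      massX (H538.fst (H790.baseL (H85.cdat ν hν).μ (Γ × Q) ι)) (H790.Ri (H85.cdat ν hν) R)
        (Ch.b ⟨0, hm⟩ n)
        (ind fun γ => γ ∈ BB (fun γ => L1 (q γ)) (fun γ => L2 (q γ)) r) ≤ ε := by
  classical
  have hd := H761.sharpCoef Λ ν hν hR hE hq
  obtain ⟨I, hI, gap, w, cl, hs, hcomp, hfin, hbr⟩ := exists_gapsP hk h4 hph hσ hJ hform hiso disc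
  obtain ⟨R, hR⟩ := nw_cls hd (H261.gchain_of_hchain Ch) hm h2m hs hcomp hfin hε
  obtain ⟨r, hr⟩ := hbr R
  exact ⟨r, fun n => (hd.ind_mono (Ch.b ⟨0, hm⟩ n)
    (P := fun γ => γ ∈ BB (fun γ => L1 (q γ)) (fun γ => L2 (q γ)) r)
    fun γ hγ => hr γ hγ.1 hγ.2).trans (hR n)⟩

/-- **`nrm`** for the group generated by the wall element `b` (point wall or line wall). -/
theorem nrm_zpowersP (hR : ARep t R) (hE : CovFam R E0)
    (hq : ∀ A (q : Q), E0 A * lx ((1 : Γ), q) = lx ((1 : Γ), q) * E0 A) {b : E}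
    (hC : ∃ C : HChain E 2, ∀ n, C.b ⟨0, two_pos⟩ n = b ^ n)
    (hC' : ∃ C : HChain E 2, ∀ n, C.b ⟨0, two_pos⟩ n = b⁻¹ ^ n) (hk : LocK k) (h4 : 4 ≤ N)
    {q : Γ → SpecialLinearGroup (Fin N) k} (hph : PHm q) {σ : k →+* k} (hσ : ∀ x, ‖σ x‖ = ‖x‖)
    {J : Matrix (Fin N) (Fin N) k} (hJ : J.det ≠ 0)
    (hform : ∀ γ, (q γ).1 * J * ((q γ).1.map σ)ᵀ = J)
    (hiso : ∀ v : Fin (2 + 1) → Fin N → k, LinearIndependent k v →
      ∃ i j, v i ⬝ᵥ (J *ᵥ (fun l => σ (v j l))) ≠ 0)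
    (disc : ∀ C : ℝ, {γ : Γ | en (q γ).1 ≤ C}.Finite) {ε : ℝ} (hε : 0 < ε) :
    ∃ r : ℝ, ∀ u ∈ Subgroup.zpowers b,
      massX (H538.fst (H790.baseL (H85.cdat ν hν).μ (Γ × Q) ι)) (H790.Ri (H85.cdat ν hν) R)
        u (ind fun γ => γ ∈ BB (fun γ => L1 (q γ)) (fun γ => L2 (q γ)) r) ≤ ε := by
  classical
  have hd := H761.sharpCoef Λ ν hν hR hE hq
  obtain ⟨C, hC⟩ := hC
  obtain ⟨C', hC'⟩ := hC'
  obtain ⟨r, hr⟩ := nrm_chainP Λ ν hν hR hE hq C two_pos le_rfl hk h4 hph hσ hJ hform hiso disc hε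
  obtain ⟨r', hr'⟩ := nrm_chainP Λ ν hν hR hE hq C' two_pos le_rfl hk h4 hph hσ hJ hform hiso
    disc hε
  have mono : ∀ (r₁ r₂ : ℝ) (u : E), r₁ ≤ r₂ →
      massX (H538.fst (H790.baseL (H85.cdat ν hν).μ (Γ × Q) ι)) (H790.Ri (H85.cdat ν hν) R)
        u (ind fun γ => γ ∈ BB (fun γ => L1 (q γ)) (fun γ => L2 (q γ)) r₂) ≤
      massX (H538.fst (H790.baseL (H85.cdat ν hν).μ (Γ × Q) ι)) (H790.Ri (H85.cdat ν hν) R)
        u (ind fun γ => γ ∈ BB (fun γ => L1 (q γ)) (fun γ => L2 (q γ)) r₁) := fun r₁ r₂ u h =>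
    hd.ind_mono u (P := fun γ => γ ∈ BB (fun γ => L1 (q γ)) (fun γ => L2 (q γ)) r₂)
      (Q := fun γ => γ ∈ BB (fun γ => L1 (q γ)) (fun γ => L2 (q γ)) r₁)
      fun γ hγ => H859.CL.BB_mono h hγ
  refine ⟨max r r', ?_⟩
  rintro _ ⟨z, rfl⟩
  obtain ⟨n, rfl | rfl⟩ := z.eq_nat_or_neg
  · have h0 := hr n
    rw [hC] at h0
    have h1 := (mono _ _ (b ^ n) (le_max_left r r')).trans h0
    simpa using h1
  · have h0 := hr' n
    rw [hC'] at h0
    have h1 := (mono _ _ (b⁻¹ ^ n) (le_max_right r r')).trans h0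
    simpa using h1

open Vale.Agent.P092.H790 (CData Fld fld_comp Ri ri_ae ae_comp act_inv baseL)
open Vale.Agent.P092.H357 (B2 Gen BdL2)
open Vale.Agent.P092.H776.NW (nrv_abs)

omit [ProperSpace k] [Countable Γ] in
theorem bbP_antitone (q : Γ → SpecialLinearGroup (Fin N) k) :
    Antitone (BB (fun γ => L1 (q γ)) (fun γ => L2 (q γ))) :=
  fun _ _ h => H859.CL.BB_mono h

omit [ProperSpace k] [Countable Γ] in
/-- Translation of the regular sets. -/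
theorem bbP_trans (h2 : 2 ≤ N) {q : Γ → SpecialLinearGroup (Fin N) k} (hph : PHm q) (γ : Γ)
    (r : ℝ) :
    ∃ r', ∀ g ∈ BB (fun γ => L1 (q γ)) (fun γ => L2 (q γ)) r',
      γ⁻¹ * g ∈ BB (fun γ => L1 (q γ)) (fun γ => L2 (q γ)) r := by
  obtain ⟨C, hC⟩ := L_quasi_ph h2 hph γ⁻¹ 1
  refine ⟨r + C, fun g hg => ?_⟩
  have h := hC g
  rw [mul_one] at h
  have h1 := (abs_le.1 h.1).1
  have h2 := (abs_le.1 h.2).1
  have h3 : r + C < L1 (q g) := hg.1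
  have h4 : r + C < L2 (q g) := hg.2
  exact ⟨by change r < L1 (q (γ⁻¹ * g)); linarith, by change r < L2 (q (γ⁻¹ * g)); linarith⟩

/-- **`nrv`** for the group generated by the wall element `b`. -/
theorem nrv_zpowersP (hR : ARep t R) (hE : CovFam R E0)
    (hq : ∀ A (q : Q), E0 A * lx ((1 : Γ), q) = lx ((1 : Γ), q) * E0 A) {b : E}
    (hC : ∃ C : HChain E 2, ∀ n, C.b ⟨0, two_pos⟩ n = b ^ n)
    (hC' : ∃ C : HChain E 2, ∀ n, C.b ⟨0, two_pos⟩ n = b⁻¹ ^ n) (hk : LocK k) (h4 : 4 ≤ N)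
    {q : Γ → SpecialLinearGroup (Fin N) k} (hph : PHm q) {σ : k →+* k} (hσ : ∀ x, ‖σ x‖ = ‖x‖)
    {J : Matrix (Fin N) (Fin N) k} (hJ : J.det ≠ 0)
    (hform : ∀ γ, (q γ).1 * J * ((q γ).1.map σ)ᵀ = J)
    (hiso : ∀ v : Fin (2 + 1) → Fin N → k, LinearIndependent k v →
      ∃ i j, v i ⬝ᵥ (J *ᵥ (fun l => σ (v j l))) ≠ 0)
    (disc : ∀ C : ℝ, {γ : Γ | en (q γ).1 ≤ C}.Finite)
    {ξ : Lp (Ell2 ((Γ × Q) × ι)) 2 (H85.cdat ν hν).μ}
    (hξ : ξ ∈ BdL2 (H85.cdat ν hν).μ Γ Q ι) {ε : ℝ} (hε : 0 < ε) :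
    ∃ r : ℝ, ∀ u ∈ Subgroup.zpowers b,
      ‖(H538.fst (baseL (H85.cdat ν hν).μ (Γ × Q) ι)).mp
        (ind fun γ => γ ∈ BB (fun γ => L1 (q γ)) (fun γ => L2 (q γ)) r)
          (Ri (H85.cdat ν hν) R u ξ)‖ ≤ ε := by
  have : Countable Λ := H790.countable_of_discrete Λ
  exact nrv_abs (H85.cdat ν hν) hR (bbP_antitone q) (bbP_trans (by omega) hph)
    (A := (Subgroup.zpowers b : Set E))
    (fun ε hε => nrm_zpowersP Λ ν hν hR hE hq hC hC' hk h4 hph hσ hJ hform hiso disc hε) hξ hε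

end nrm

end Vale.Agent.P092.H534.SpK
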