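import Vale.Agent.P092.H534.Sp.Nrm
import Vale.Agent.P092.H805.RowN

/-!
P092 (helper534), TEAM P, [P-NRM] part 5: `SysF` of the concrete picture over any source group `E` with
chains of length 2 starting at the wall element `b` and at `b⁻¹`, target `q : Γ → SL_N(k)` preserving
a form of Witt index 2 (a homomorphism modulo scalars). The case `Sp_4(k)`.
-/

set_option linter.all false

open scoped InnerProductSpace ENNReal
open Matrix Filter Topology MeasureTheory ContinuousLinearMap TopologicalSpace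

namespace Vale.Agent.P092.H534.SpK

open Vale.Agent.P092.SR Vale.Agent.P092.H160
open Vale.Agent.P092.H701 (HChain)
open Vale.Agent.P092.H933 (LocK)
open Vale.Agent.P092.H337.NG (en m2 mi)
open Vale.Agent.P092.H859.CL (BB)
open Vale.Agent.P092.RC (VR arep_VR VR_one KK pic lam₁ lam₂ XX Om Pic)
open Vale.Agent.P092.H805.RowN (Bd msE sysE cov_VR cov_lx)
open Vale.Agent.P092.H805.Row (msR mpE)

/-! ### The form of `Sp_4` -/

section form4

variable {k : Type} [NontriviallyNormedField k] {N q : ℕ}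

/-- A nondegenerate form on `k^N` has no isotropic subspace of dimension `> N / 2`. -/
theorem hiso_of (hN : N < 2 * (q + 1)) {J : Matrix (Fin N) (Fin N) k} (hJ : J.det ≠ 0) :
    ∀ v : Fin (q + 1) → Fin N → k, LinearIndependent k v →
      ∃ i j, v i ⬝ᵥ (J *ᵥ (fun l => (RingHom.id k) (v j l))) ≠ 0 := by
  intro v hv
  by_contra hc
  push Not at hc
  obtain ⟨A, hA⟩ : ∃ A : Matrix (Fin (q + 1)) (Fin N) k, A = Matrix.of v := ⟨_, rfl⟩
  have hr : A.rank = q + 1 := by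
    have h1 : LinearIndependent k A.row := by rw [hA]; exact hv
    have h2 := h1.rank_matrix
    rwa [Fintype.card_fin] at h2
  have h0 : A * (J * Aᵀ) = 0 := by
    ext i j
    have h1 := hc i j
    rw [Matrix.mul_apply, Matrix.zero_apply, ← h1]
    refine Finset.sum_congr rfl fun l _ => ?_
    congr 1
    · rw [hA]; rfl
    · rw [hA, Matrix.mul_apply]
      rfl
  have h3 : (J * Aᵀ).rank = q + 1 := by
    rw [Matrix.rank_mul_eq_right_of_isUnit_det J Aᵀ (isUnit_iff_ne_zero.2 hJ),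
      Matrix.rank_transpose, hr]
  have h4 := Matrix.rank_add_rank_le_card_of_mul_eq_zero h0
  rw [hr, h3, Fintype.card_fin] at h4
  omega

/-- `gᵀ K g = K` in the form `g J gᵀ = J`, `J = K⁻¹`. -/
theorem form_of_tr {K g : Matrix (Fin N) (Fin N) k} (hK : K.det ≠ 0) (hg : gᵀ * K * g = K) :
    g * K⁻¹ * (g.map (RingHom.id k))ᵀ = K⁻¹ := by
  have hu : IsUnit K.det := isUnit_iff_ne_zero.2 hK
  have h1 : K⁻¹ * gᵀ * K * g = 1 := by
    rw [Matrix.mul_assoc, Matrix.mul_assoc, ← Matrix.mul_assoc gᵀ, hg,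
      Matrix.nonsing_inv_mul K hu]
  have h2 : g * (K⁻¹ * gᵀ * K) = 1 := mul_eq_one_comm.1 h1
  have e : (g.map (RingHom.id k))ᵀ = gᵀ := by
    ext i j
    rfl
  rw [e]
  calc g * K⁻¹ * gᵀ = g * (K⁻¹ * gᵀ * K) * K⁻¹ := by
        simp only [Matrix.mul_assoc]
        rw [Matrix.mul_nonsing_inv K hu, Matrix.mul_one]
    _ = K⁻¹ := by rw [h2, Matrix.one_mul]

end form4

/-! ### `SysF` -/

section con

variable {E : Type} [Group E] [TopologicalSpace E] [IsTopologicalGroup E] [LocallyCompactSpace E]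
  [SecondCountableTopology E] [T2Space E] [MeasurableSpace E] [BorelSpace E]
  {Γ : Subgroup E} [DiscreteTopology Γ] [Countable Γ] [MeasurableSpace (E ⧸ Γ)]
  [BorelSpace (E ⧸ Γ)] {ν : Measure (E ⧸ Γ)} [IsProbabilityMeasure ν]
  (hν : ∀ g : E, ν.map (fun x => g • x) = ν)
  {Λ : Type} [Group Λ] [Countable Λ] {α : Γ →* (Ell2 Λ →L[ℂ] Ell2 Λ)} (hα : Frame α)
  {N : ℕ} {k : Type} [NontriviallyNormedField k] [ProperSpace k]

/-- **`nrm` on the picture.** -/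
theorem nrmP {b : E}
    (hC : ∃ C : HChain E 2, ∀ n, C.b ⟨0, two_pos⟩ n = b ^ n)
    (hC' : ∃ C : HChain E 2, ∀ n, C.b ⟨0, two_pos⟩ n = b⁻¹ ^ n) (hk : LocK k) (h4 : 4 ≤ N)
    {q : Γ → SpecialLinearGroup (Fin N) k} (hph : PHm q) {σ : k →+* k} (hσ : ∀ x, ‖σ x‖ = ‖x‖)
    {J : Matrix (Fin N) (Fin N) k} (hJ : J.det ≠ 0)
    (hform : ∀ γ, (q γ).1 * J * ((q γ).1.map σ)ᵀ = J)
    (hiso : ∀ v : Fin (2 + 1) → Fin N → k, LinearIndependent k v →
      ∃ i j, v i ⬝ᵥ (J *ᵥ (fun l => σ (v j l))) ≠ 0)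
    (disc : ∀ C : ℝ, {γ : Γ | en (q γ).1 ≤ C}.Finite) {ε : ℝ} (hε : 0 < ε) :
    ∃ r : ℝ, ∀ u ∈ Subgroup.zpowers b,
      msE hν hα u (BB (fun γ => L1 (q γ)) (fun γ => L2 (q γ)) r) ≤ ε :=
  nrm_zpowersP Γ ν hν (arep_VR hα) (cov_VR hα) (fun A q => cov_lx hα A q) hC hC' hk h4 hph hσ hJ
    hform hiso disc hε

/-- **`SysF` on the picture**, letters `CL`. -/
theorem sysP {b : E}
    (hC : ∃ C : HChain E 2, ∀ n, C.b ⟨0, two_pos⟩ n = b ^ n)
    (hC' : ∃ C : HChain E 2, ∀ n, C.b ⟨0, two_pos⟩ n = b⁻¹ ^ n) (hk : LocK k) (h4 : 4 ≤ N)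
    {q : Γ → SpecialLinearGroup (Fin N) k} (hph : PHm q) {σ : k →+* k} (hσ : ∀ x, ‖σ x‖ = ‖x‖)
    {J : Matrix (Fin N) (Fin N) k} (hJ : J.det ≠ 0)
    (hform : ∀ γ, (q γ).1 * J * ((q γ).1.map σ)ᵀ = J)
    (hiso : ∀ v : Fin (2 + 1) → Fin N → k, LinearIndependent k v →
      ∃ i j, v i ⬝ᵥ (J *ᵥ (fun l => σ (v j l))) ≠ 0)
    (disc : ∀ C : ℝ, {γ : Γ | en (q γ).1 ≤ C}.Finite) :
    H859.CL.SysF (mpE ν hα) (fun g => pic hν hα g) (Bd ν hα) (msE hν hα) (Subgroup.zpowers b)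
      (fun γ => L1 (q γ)) (fun γ => L2 (q γ)) :=
  sysE hν hα (L_quasi_ph (by omega) hph) fun ε hε =>
    nrmP hν hα hC hC' hk h4 hph hσ hJ hform hiso disc hε

/-- **`SysF` on the picture, target `Sp_4(k)`** in the letters `gᵀ K g = K`, `K` any invertible
matrix. -/
theorem sysP4 {b : E}
    (hC : ∃ C : HChain E 2, ∀ n, C.b ⟨0, two_pos⟩ n = b ^ n)
    (hC' : ∃ C : HChain E 2, ∀ n, C.b ⟨0, two_pos⟩ n = b⁻¹ ^ n) (hk : LocK k)
    {q : Γ → SpecialLinearGroup (Fin 4) k} (hph : PHm q) {K : Matrix (Fin 4) (Fin 4) k}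
    (hK : K.det ≠ 0) (hform : ∀ γ, (q γ).1ᵀ * K * (q γ).1 = K)
    (disc : ∀ C : ℝ, {γ : Γ | en (q γ).1 ≤ C}.Finite) :
    H859.CL.SysF (mpE ν hα) (fun g => pic hν hα g) (Bd ν hα) (msE hν hα) (Subgroup.zpowers b)
      (fun γ => L1 (q γ)) (fun γ => L2 (q γ)) := by
  have hK' : K⁻¹.det ≠ 0 := by
    rw [Matrix.det_nonsing_inv, Ring.inverse_eq_inv']
    exact inv_ne_zero hK
  exact sysP hν hα hC hC' hk le_rfl hph (σ := RingHom.id k) (fun x => rfl) hK'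
    (fun γ => form_of_tr hK (hform γ)) (hiso_of (by norm_num) hK') disc

end con

end Vale.Agent.P092.H534.SpK
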