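import Vale.Agent.P092.H534.Sp.ChQ
import Vale.Agent.P092.H534.Sp.Pic
import Vale.Agent.P092.SP.ExS
import Vale.Agent.P092.H899.T3

/-!
P092 (helper534), TEAM P, [P-NRM] part 7: the letters of `SP/Defs`. For every admissible source group
`E` of `Sp_4(k)` (`ι : S4 k →* E`, `a : E →* PGL_4(k)`): chains of length 2 with first direction
`ι (B1 w)`, `ι (B2 w)` or their inverses; `SysF` of the concrete picture over `E` for both walls and
both orders of the gauges `l1`, `l2`; `q : Γ → S4 k` a homomorphism modulo signs with finite balls.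
-/

set_option linter.all false

open scoped InnerProductSpace ENNReal
open Matrix Set Filter Topology MeasureTheory ContinuousLinearMap TopologicalSpace

namespace Vale.Agent.P092.H534.SpK

open Vale.Agent.P092.SR Vale.Agent.P092.H160
open Vale.Agent.P092.H701 (HChain)
open Vale.Agent.P092.H933 (LocK)
open Vale.Agent.P092.H368.SN (tv tv_coe)
open Vale.Agent.P092.SP4 (S4 J4 mem_S4 mem_S4' b1 b2 lg lg' lg_mem lg'_mem sh_mem sh'_mem tps
  tps_mem)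
open Vale.Agent.P092.SP (B1 B2 Adm PH nm)
open Vale.Agent.P092.RC (PG YY VR arep_VR VR_one KK pic lam₁ lam₂ XX Om Pic)
open Vale.Agent.P092.H35 (sp)
open Vale.Agent.P092.H859.CL (BB)
open Vale.Agent.P092.H805.RowN (Bd msE sysE sysNE cn_of_cl)
open Vale.Agent.P092.H805.Row (msR mpE)
open Vale.Agent.P092.H899.T (l1 l2)

section s4

variable {k : Type} [NontriviallyNormedField k]

theorem tv03 (s : k) : tv (show (0 : Fin 4) ≠ 3 by decide) s = lg s := by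
  apply Subtype.ext
  ext i j
  fin_cases i <;> fin_cases j <;> simp [tv_coe, lg, transvection, Matrix.single]

theorem tv30 (s : k) : tv (show (0 : Fin 4) ≠ 3 by decide).symm s = tps (lg s) := by
  apply Subtype.ext
  ext i j
  fin_cases i <;> fin_cases j <;> simp [tv_coe, lg, tps, transvection, Matrix.single]

theorem tv12 (s : k) : tv (show (1 : Fin 4) ≠ 2 by decide) s = lg' s := by
  apply Subtype.ext
  ext i j
  fin_cases i <;> fin_cases j <;> simp [tv_coe, lg', transvection, Matrix.single]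

theorem tv21 (s : k) : tv (show (1 : Fin 4) ≠ 2 by decide).symm s = tps (lg' s) := by
  apply Subtype.ext
  ext i j
  fin_cases i <;> fin_cases j <;> simp [tv_coe, lg', tps, transvection, Matrix.single]

theorem sh01 (s : k) : sh (show (0 : Fin 4) ≠ 1 by decide) (show (2 : Fin 4) ≠ 3 by decide) (-1) s =
    SP4.sh s := by
  apply Subtype.ext
  ext i j
  fin_cases i <;> fin_cases j <;>
    simp [sh, tv_coe, SP4.sh, transvection, Matrix.single, Matrix.mul_apply, Fin.sum_univ_four]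

theorem sh10 (s : k) : sh (show (0 : Fin 4) ≠ 1 by decide).symm
    (show (2 : Fin 4) ≠ 3 by decide).symm (-1) s = tps (SP4.sh s) := by
  apply Subtype.ext
  ext i j
  fin_cases i <;> fin_cases j <;>
    simp [sh, tv_coe, SP4.sh, tps, transvection, Matrix.single, Matrix.mul_apply,
      Fin.sum_univ_four]

theorem sh02 (s : k) : sh (show (0 : Fin 4) ≠ 2 by decide) (show (1 : Fin 4) ≠ 3 by decide) 1 s =
    SP4.sh' s := by
  apply Subtype.ext
  ext i j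
  fin_cases i <;> fin_cases j <;>
    simp [sh, tv_coe, SP4.sh', transvection, Matrix.single, Matrix.mul_apply, Fin.sum_univ_four]

/-- the root groups of `Sp_4(k)` -/
theorem rtg4 : RtG (S4 k) (0 : Fin 4) 3 1 2 (-1) (-1) 1 where
  aa := by decide
  bb := by decide
  ab := by decide
  ab' := by decide
  ba := by decide
  ba' := by decide
  la s := by rw [tv03]; exact lg_mem s
  la' s := by rw [tv30]; exact tps_mem (lg_mem s)
  lb s := by rw [tv12]; exact lg'_mem s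
  lb' s := by rw [tv21]; exact tps_mem (lg'_mem s)
  sab s := by rw [sh01]; exact sh_mem s
  sba s := by rw [sh10]; exact tps_mem (sh_mem s)
  sab' s := by rw [sh02]; exact sh'_mem s

/-- `diag(1, w⁻¹, w, 1)` -/
def c1s (w : kˣ) : SpecialLinearGroup (Fin 4) k :=
  ⟨Matrix.diagonal ![1, ((w⁻¹ : kˣ) : k), (w : k), 1], by
    rw [det_diagonal]; simp [Fin.prod_univ_four]⟩

/-- `diag(w⁻¹, w, w⁻¹, w)` -/
def c2s (w : kˣ) : SpecialLinearGroup (Fin 4) k :=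
  ⟨Matrix.diagonal ![((w⁻¹ : kˣ) : k), (w : k), ((w⁻¹ : kˣ) : k), (w : k)], by
    rw [det_diagonal]; simp [Fin.prod_univ_four]⟩

theorem c1_mem (w : kˣ) : c1s w ∈ S4 k := by
  rw [mem_S4]
  ext i j
  fin_cases i <;> fin_cases j <;>
    simp [c1s, J4, Matrix.mul_apply, Fin.sum_univ_four, Matrix.diagonal]

theorem c2_mem (w : kˣ) : c2s w ∈ S4 k := by
  rw [mem_S4]
  ext i j
  fin_cases i <;> fin_cases j <;>
    simp [c2s, J4, Matrix.mul_apply, Fin.sum_univ_four, Matrix.diagonal]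

/-- `diag(1, w⁻¹, w, 1)` -/
def c1 (w : kˣ) : S4 k := ⟨c1s w, c1_mem w⟩

/-- `diag(w⁻¹, w, w⁻¹, w)` -/
def c2 (w : kˣ) : S4 k := ⟨c2s w, c2_mem w⟩

theorem lt_inv {w : kˣ} (hw : ‖(w : k)‖ < 1) : ‖(w : k)‖ < ‖((w⁻¹ : kˣ) : k)‖ := by
  rw [Units.val_inv_eq_inv_val, norm_inv]
  exact hw.trans (one_lt_inv_iff₀.2 ⟨norm_pos_iff.2 w.ne_zero, hw⟩)

variable [ProperSpace k] {E : Type} [Group E] [TopologicalSpace E] [MeasurableSpace E]
  [BorelSpace E] {ι : S4 k →* E} {a : E →* PG k 4}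

/-- **Chains, wall of points.** -/
theorem chains1 (h : Adm ι a) {w : kˣ} (hw : ‖(w : k)‖ < 1) :
    (∃ C : HChain E 2, ∀ N, C.b ⟨0, two_pos⟩ N = ι (B1 w) ^ N) ∧
      ∃ C : HChain E 2, ∀ N, C.b ⟨0, two_pos⟩ N = (ι (B1 w))⁻¹ ^ N :=
  chain_ptE ι a h.cι h.ca (SP.a_ι h) rtg4 (g₀ := B1 w) (g₁ := c1 w)
    (d₀ := ![((w⁻¹ : kˣ) : k), 1, 1, (w : k)]) (d₁ := ![1, ((w⁻¹ : kˣ) : k), (w : k), 1])
    rfl rfl (lt_inv hw) rfl (lt_inv hw)

/-- **Chains, wall of lines.** -/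
theorem chains2 (h : Adm ι a) {w : kˣ} (hw : ‖(w : k)‖ < 1) :
    (∃ C : HChain E 2, ∀ N, C.b ⟨0, two_pos⟩ N = ι (B2 w) ^ N) ∧
      ∃ C : HChain E 2, ∀ N, C.b ⟨0, two_pos⟩ N = (ι (B2 w))⁻¹ ^ N :=
  chain_lnE ι a h.cι h.ca (SP.a_ι h) rtg4 (g₀ := B2 w) (g₁ := c2 w)
    (d₀ := ![((w⁻¹ : kˣ) : k), ((w⁻¹ : kˣ) : k), (w : k), (w : k)])
    (d₁ := ![((w⁻¹ : kˣ) : k), (w : k), ((w⁻¹ : kˣ) : k), (w : k)])
    rfl rfl (lt_inv hw) rfl rfl (lt_inv hw)

end s4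

/-! ### `SysF` -/

section con

variable {k : Type} [NontriviallyNormedField k] [ProperSpace k]
  {E : Type} [Group E] [TopologicalSpace E] [IsTopologicalGroup E] [LocallyCompactSpace E]
  [SecondCountableTopology E] [T2Space E] [MeasurableSpace E] [BorelSpace E]
  {Γ : Subgroup E} [DiscreteTopology Γ] [Countable Γ] [MeasurableSpace (E ⧸ Γ)]
  [BorelSpace (E ⧸ Γ)] {ν : Measure (E ⧸ Γ)} [IsProbabilityMeasure ν]
  (hν : ∀ g : E, ν.map (fun x => g • x) = ν)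
  {Λ : Type} [Group Λ] [Countable Λ] {α : Γ →* (Ell2 Λ →L[ℂ] Ell2 Λ)} (hα : Frame α)
  {ι : S4 k →* E} {a : E →* PG k 4} {q : Γ → S4 k}

/-- **`nrm`, any direction with the two chains.** -/
theorem nrm4 {b : E} (hC : ∃ C : HChain E 2, ∀ n, C.b ⟨0, two_pos⟩ n = b ^ n)
    (hC' : ∃ C : HChain E 2, ∀ n, C.b ⟨0, two_pos⟩ n = b⁻¹ ^ n) (hk : LocK k) (hq : PH q)
    (fin : ∀ C : ℝ, {γ | nm (q γ) ≤ C}.Finite) {ε : ℝ} (hε : 0 < ε) :
    ∃ r : ℝ, ∀ u ∈ Subgroup.zpowers b,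
      msE hν hα u (BB (fun γ => l1 (q γ)) (fun γ => l2 (q γ)) r) ≤ ε := by
  have hK : (J4 k)⁻¹.det ≠ 0 := by
    rw [Matrix.det_nonsing_inv, Ring.inverse_eq_inv']
    have h1 : (J4 k).det = 1 := (SP4.j4 (k := k)).2
    rw [h1]
    exact inv_ne_zero one_ne_zero
  have hJ : (J4 k).det ≠ 0 := by
    have h1 : (J4 k).det = 1 := (SP4.j4 (k := k)).2
    rw [h1]
    exact one_ne_zero
  exact nrmP hν hα hC hC' hk le_rfl (q := fun γ => (q γ).1) hq (σ := RingHom.id k)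
    (fun x => rfl) hK (fun γ => form_of_tr hJ (mem_S4'.1 (q γ).2)) (hiso_of (by norm_num) hK)
    fin hε

/-- **`SysF` with the gauges `(l1, l2)`** (targets of type 1). -/
theorem sys12 {b : E} (hC : ∃ C : HChain E 2, ∀ n, C.b ⟨0, two_pos⟩ n = b ^ n)
    (hC' : ∃ C : HChain E 2, ∀ n, C.b ⟨0, two_pos⟩ n = b⁻¹ ^ n) (hk : LocK k) (hq : PH q)
    (fin : ∀ C : ℝ, {γ | nm (q γ) ≤ C}.Finite) :
    H859.CL.SysF (mpE ν hα) (fun g => pic hν hα g) (Bd ν hα) (msE hν hα) (Subgroup.zpowers b)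
      (fun γ => l1 (q γ)) (fun γ => l2 (q γ)) :=
  sysE hν hα (H899.T.gap_l hq) fun ε hε => nrm4 hν hα hC hC' hk hq fin hε

/-- **`SysF` with the gauges `(l2, l1)`** (targets of type 2). -/
theorem sys21 {b : E} (hC : ∃ C : HChain E 2, ∀ n, C.b ⟨0, two_pos⟩ n = b ^ n)
    (hC' : ∃ C : HChain E 2, ∀ n, C.b ⟨0, two_pos⟩ n = b⁻¹ ^ n) (hk : LocK k) (hq : PH q)
    (fin : ∀ C : ℝ, {γ | nm (q γ) ≤ C}.Finite) :
    H859.CL.SysF (mpE ν hα) (fun g => pic hν hα g) (Bd ν hα) (msE hν hα) (Subgroup.zpowers b)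
      (fun γ => l2 (q γ)) (fun γ => l1 (q γ)) := by
  refine sysE hν hα (fun s u => ?_) fun ε hε => ?_
  · obtain ⟨C, hC⟩ := H899.T.gap_l hq s u
    exact ⟨C, fun x => ⟨(hC x).2, (hC x).1⟩⟩
  · obtain ⟨r, hr⟩ := nrm4 hν hα hC hC' hk hq fin hε
    refine ⟨r, fun u hu => ?_⟩
    have e : BB (fun γ => l2 (q γ)) (fun γ => l1 (q γ)) r =
        BB (fun γ => l1 (q γ)) (fun γ => l2 (q γ)) r := by
      ext γ
      exact and_comm
    rw [e]
    exact hr u hu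

/-- the letters `CN` -/
theorem cn_of {mp : (Γ → ℝ) → (KK ν Λ →L[ℂ] KK ν Λ)} {R : E → (KK ν Λ →L[ℂ] KK ν Λ)}
    {D : Set (KK ν Λ)} {ms : E → Set Γ → ℝ} {A : Subgroup E} {G1 G2 : Γ → ℝ}
    (h : H859.CL.SysF mp R D ms A G1 G2) :
    H859.CN.SysF mp R D ms A (BB G1 G2) G1 G2 := cn_of_cl h h.sys.nrm

variable {w : kˣ}

/-- **Wall of points, targets of type 1.** -/
theorem sysB1 (h : Adm ι a) (hk : LocK k) (hw : ‖(w : k)‖ < 1) (hq : PH q)
    (fin : ∀ C : ℝ, {γ | nm (q γ) ≤ C}.Finite) :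
    H859.CL.SysF (mpE ν hα) (fun g => pic hν hα g) (Bd ν hα) (msE hν hα)
      (Subgroup.zpowers (ι (B1 w))) (fun γ => l1 (q γ)) (fun γ => l2 (q γ)) :=
  sys12 hν hα (chains1 h hw).1 (chains1 h hw).2 hk hq fin

/-- **Wall of points, targets of type 2.** -/
theorem sysB1' (h : Adm ι a) (hk : LocK k) (hw : ‖(w : k)‖ < 1) (hq : PH q)
    (fin : ∀ C : ℝ, {γ | nm (q γ) ≤ C}.Finite) :
    H859.CL.SysF (mpE ν hα) (fun g => pic hν hα g) (Bd ν hα) (msE hν hα)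
      (Subgroup.zpowers (ι (B1 w))) (fun γ => l2 (q γ)) (fun γ => l1 (q γ)) :=
  sys21 hν hα (chains1 h hw).1 (chains1 h hw).2 hk hq fin

/-- **Wall of lines, targets of type 1.** -/
theorem sysB2 (h : Adm ι a) (hk : LocK k) (hw : ‖(w : k)‖ < 1) (hq : PH q)
    (fin : ∀ C : ℝ, {γ | nm (q γ) ≤ C}.Finite) :
    H859.CL.SysF (mpE ν hα) (fun g => pic hν hα g) (Bd ν hα) (msE hν hα)
      (Subgroup.zpowers (ι (B2 w))) (fun γ => l1 (q γ)) (fun γ => l2 (q γ)) :=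
  sys12 hν hα (chains2 h hw).1 (chains2 h hw).2 hk hq fin

/-- **Wall of lines, targets of type 2.** -/
theorem sysB2' (h : Adm ι a) (hk : LocK k) (hw : ‖(w : k)‖ < 1) (hq : PH q)
    (fin : ∀ C : ℝ, {γ | nm (q γ) ≤ C}.Finite) :
    H859.CL.SysF (mpE ν hα) (fun g => pic hν hα g) (Bd ν hα) (msE hν hα)
      (Subgroup.zpowers (ι (B2 w))) (fun γ => l2 (q γ)) (fun γ => l1 (q γ)) :=
  sys21 hν hα (chains2 h hw).1 (chains2 h hw).2 hk hq fin

/-- the group generated by the inverse -/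
theorem sys_inv {mp : (Γ → ℝ) → (KK ν Λ →L[ℂ] KK ν Λ)} {R : E → (KK ν Λ →L[ℂ] KK ν Λ)}
    {D : Set (KK ν Λ)} {ms : E → Set Γ → ℝ} {b : E} {G1 G2 : Γ → ℝ}
    (h : H859.CL.SysF mp R D ms (Subgroup.zpowers b) G1 G2) :
    H859.CL.SysF mp R D ms (Subgroup.zpowers b⁻¹) G1 G2 := by
  rw [Subgroup.zpowers_inv]
  exact h

end con

end Vale.Agent.P092.H534.SpK
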