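import Vale.Agent.P092.H701.SLn
import Vale.Agent.P092.H368.SN.Orb

/-!
P092 (helper534), TEAM P, [P-NRM] part 1: chains `HChain` of length 2 for symplectic (and larger)
matrix groups whose first direction is a given wall element (point wall, line wall) or its inverse.

`G` is any subgroup of `SL_n(k)`; `a, a'` and `b, b'` are two hyperbolic pairs of indices.
-/

set_option linter.all false

open Matrix Set Topology

namespace Vale.Agent.P092.H534.SpK

open Vale.Agent.P092.H701 (RowPair HChain)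
open Vale.Agent.P092.H368.SN (tv tv_coe tv_add tv_zero tv_inv tv_sub tv_entry continuous_tv diag_tv)

section abs

variable {H : Type*} [Group H] [TopologicalSpace H] {k : Type*} [NontriviallyNormedField k]
  {V : Type*} [NormedAddCommGroup V] [NormedSpace k V]

/-- exchange of the two rows -/
def swap (R : RowPair H k V) : RowPair H k V where
  ρ₁ := R.ρ₂
  ρ₂ := R.ρ₁
  cont₁ := R.cont₂
  cont₂ := R.cont₁
  ne x := by rw [max_comm]; exact R.ne x
  up := R.lo
  lo := R.up
  cont_up := R.cont_lo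
  cont_lo := R.cont_up
  up₁ := R.lo₂
  up₂ := R.lo₁
  lo₁ := R.up₂
  lo₂ := R.up₁

/-- `b` acts on the two rows by `α`, `β` with `|β| < |α|`. -/
structure Sc (R : RowPair H k V) (b : H) (α β : k) : Prop where
  lt : ‖β‖ < ‖α‖
  r₁ : ∀ x, R.ρ₁ (b * x) = α • R.ρ₁ x
  r₂ : ∀ x, R.ρ₂ (b * x) = β • R.ρ₂ x

theorem Sc.ne {R : RowPair H k V} {b : H} {α β : k} (h : Sc R b α β) : α ≠ 0 :=
  norm_pos_iff.1 ((norm_nonneg β).trans_lt h.lt)

theorem Sc.pow {R : RowPair H k V} {b : H} {α β : k} (h : Sc R b α β) (N : ℕ) (x : H) :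
    R.ρ₁ (b ^ N * x) = α ^ N • R.ρ₁ x ∧ R.ρ₂ (b ^ N * x) = β ^ N • R.ρ₂ x := by
  induction N generalizing x with
  | zero => simp
  | succ N ih =>
    rw [pow_succ, mul_assoc, (ih _).1, (ih _).2, h.r₁, h.r₂, smul_smul, smul_smul, pow_succ,
      pow_succ]
    exact ⟨rfl, rfl⟩

theorem Sc.inv {R : RowPair H k V} {b : H} {α β : k} (h : Sc R b α β) (hβ : β ≠ 0) :
    Sc (swap R) b⁻¹ β⁻¹ α⁻¹ := by
  refine ⟨?_, fun x => ?_, fun x => ?_⟩
  · rw [norm_inv, norm_inv]
    exact inv_strictAnti₀ (norm_pos_iff.2 hβ) h.lt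
  · have h1 := h.r₂ (b⁻¹ * x)
    rw [mul_inv_cancel_left] at h1
    change R.ρ₂ (b⁻¹ * x) = β⁻¹ • R.ρ₂ x
    rw [h1, smul_smul, inv_mul_cancel₀ hβ, one_smul]
  · have h1 := h.r₁ (b⁻¹ * x)
    rw [mul_inv_cancel_left] at h1
    change R.ρ₁ (b⁻¹ * x) = α⁻¹ • R.ρ₁ x
    rw [h1, smul_smul, inv_mul_cancel₀ h.ne, one_smul]

theorem Sc.lim {R : RowPair H k V} {b : H} {α β : k} (h : Sc R b α β) (C : ℝ) :
    ∃ N₀ : ℕ, ∀ N, N₀ ≤ N → C * ‖β ^ N‖ ≤ ‖α ^ N‖ := by
  have hα : 0 < ‖α‖ := (norm_nonneg β).trans_lt h.lt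
  obtain ⟨r, hr⟩ : ∃ r : ℝ, r = ‖β‖ / ‖α‖ := ⟨_, rfl⟩
  have hr0 : 0 ≤ r := by rw [hr]; positivity
  have hr1 : r < 1 := by rw [hr, div_lt_one hα]; exact h.lt
  obtain ⟨N₀, hN₀⟩ := exists_pow_lt_of_lt_one (show (0 : ℝ) < 1 / (|C| + 1) by positivity) hr1
  refine ⟨N₀, fun N hN => ?_⟩
  have h1 : r ^ N ≤ 1 / (|C| + 1) := (pow_le_pow_of_le_one hr0 hr1.le hN).trans hN₀.le
  have h2 : (|C| + 1) * r ^ N ≤ 1 := by
    have := mul_le_mul_of_nonneg_left h1 (show (0 : ℝ) ≤ |C| + 1 by positivity)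
    rwa [mul_one_div_cancel (by positivity)] at this
  have h3 : ‖β‖ ^ N = r ^ N * ‖α‖ ^ N := by
    rw [← mul_pow, hr, div_mul_cancel₀ _ hα.ne']
  rw [norm_pow, norm_pow, h3]
  have h4 : 0 ≤ ‖α‖ ^ N := by positivity
  have h5 : 0 ≤ r ^ N := pow_nonneg hr0 N
  calc C * (r ^ N * ‖α‖ ^ N) = (C * r ^ N) * ‖α‖ ^ N := by ring
    _ ≤ 1 * ‖α‖ ^ N := by
        refine mul_le_mul_of_nonneg_right ?_ h4
        have := le_abs_self C
        nlinarith
    _ = _ := one_mul _

/-- A chain from row pairs. -/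
def chainR [ProperSpace k] [MeasurableSpace H] [OpensMeasurableSpace H] {r : ℕ}
    (R : Fin r → RowPair H k V) (b : Fin r → H) (α β : Fin r → k)
    (h : ∀ j, Sc (R j) (b j) (α j) (β j)) (hb : ∀ i j, i < j → Commute (b i) (b j))
    (hu : ∀ i j, i < j → ∀ t, Commute (b i) ((R j).up t))
    (hl : ∀ i j, i < j → ∀ t, Commute (b i) ((R j).lo t)) : HChain H r where
  b := fun j N => b j ^ N
  K := fun j => (R j).K
  compact := fun j => RowPair.isCompact_K _
  comm_b := fun i j hij N M => (hb i j hij).pow_pow N M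
  comm_K := by
    intro i j hij N x hx
    rcases hx with ⟨t, -, rfl⟩ | ⟨t, -, rfl⟩
    · exact (hu i j hij t).pow_left N
    · exact (hl i j hij t).pow_left N
  pp := fun j p => RowPair.pp (R j) (fun N => b j ^ N) (fun N => α j ^ N) (fun N => β j ^ N)
    (fun N x => ((h j).pow N x).1) (fun N x => ((h j).pow N x).2)
    (fun N => pow_ne_zero _ (h j).ne) (fun C => (h j).lim C) p

/-- A chain of length 2. -/
def chain2 [ProperSpace k] [MeasurableSpace H] [OpensMeasurableSpace H]
    (R₀ R₁ : RowPair H k V) {b₀ b₁ : H} {α₀ β₀ α₁ β₁ : k} (h₀ : Sc R₀ b₀ α₀ β₀)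
    (h₁ : Sc R₁ b₁ α₁ β₁) (hb : Commute b₀ b₁) (hu : ∀ t, Commute b₀ (R₁.up t))
    (hl : ∀ t, Commute b₀ (R₁.lo t)) : HChain H 2 :=
  chainR ![R₀, R₁] ![b₀, b₁] ![α₀, α₁] ![β₀, β₁]
    (by
      intro j
      fin_cases j
      · exact h₀
      · exact h₁)
    (by
      intro i j hij
      fin_cases i <;> fin_cases j <;> first | exact absurd hij (by decide) | exact hb)
    (by
      intro i j hij t
      fin_cases i <;> fin_cases j <;> first | exact absurd hij (by decide) | exact hu t)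
    (by
      intro i j hij t
      fin_cases i <;> fin_cases j <;> first | exact absurd hij (by decide) | exact hl t)

theorem chain2_b [ProperSpace k] [MeasurableSpace H] [OpensMeasurableSpace H]
    (R₀ R₁ : RowPair H k V) {b₀ b₁ : H} {α₀ β₀ α₁ β₁ : k} (h₀ : Sc R₀ b₀ α₀ β₀)
    (h₁ : Sc R₁ b₁ α₁ β₁) (hb : Commute b₀ b₁) (hu : ∀ t, Commute b₀ (R₁.up t))
    (hl : ∀ t, Commute b₀ (R₁.lo t)) (N : ℕ) :
    (chain2 R₀ R₁ h₀ h₁ hb hu hl).b ⟨0, two_pos⟩ N = b₀ ^ N := rfl

end abs

/-! ### Matrix groups -/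

section mat

variable {k : Type} [NontriviallyNormedField k] {n : Type} [Fintype n] [DecidableEq n]
  {G : Subgroup (SpecialLinearGroup n k)}

theorem row_pos (x : SpecialLinearGroup n k) (a : n) : 0 < ‖x.1 a‖ := by
  rw [norm_pos_iff]
  intro h
  have : x.1.det = 0 := det_eq_zero_of_row_eq_zero a (fun j => congrFun h j)
  rw [x.2] at this
  exact one_ne_zero this

theorem continuous_row (a : n) : Continuous fun x : G => x.1.1 a := by
  have h : Continuous fun x : G => x.1.1 := continuous_subtype_val.comp continuous_subtype_val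
  exact (continuous_apply a).comp h

/-- The row pair `(a, b)` of `G` with given one-parameter families. -/
def rp (a b : n) (up lo : k → G) (cu : Continuous up) (cl : Continuous lo)
    (u₁ : ∀ t (x : G), (up t * x).1.1 a = x.1.1 a + t • x.1.1 b)
    (u₂ : ∀ t (x : G), (up t * x).1.1 b = x.1.1 b)
    (l₁ : ∀ t (x : G), (lo t * x).1.1 a = x.1.1 a)
    (l₂ : ∀ t (x : G), (lo t * x).1.1 b = x.1.1 b + t • x.1.1 a) : RowPair G k (n → k) where
  ρ₁ x := x.1.1 a
  ρ₂ x := x.1.1 b
  cont₁ := continuous_row a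
  cont₂ := continuous_row b
  ne x := lt_max_of_lt_left (row_pos x.1 a)
  up := up
  lo := lo
  cont_up := cu
  cont_lo := cl
  up₁ := u₁
  up₂ := u₂
  lo₁ := l₁
  lo₂ := l₂

theorem tv_row_same {a b : n} (h : a ≠ b) (t : k) (x : SpecialLinearGroup n k) :
    (tv h t * x).1 a = x.1 a + t • x.1 b := by
  funext c
  change (transvection a b t * x.1) a c = _
  rw [transvection_mul_apply_same]
  rfl

theorem tv_row_ne {a b : n} (h : a ≠ b) (t : k) {c : n} (hc : c ≠ a)
    (x : SpecialLinearGroup n k) : (tv h t * x).1 c = x.1 c := by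
  funext d
  change (transvection a b t * x.1) c d = _
  rw [transvection_mul_apply_of_ne _ _ _ _ hc]

/-- diagonal elements -/
theorem dg_row {b : SpecialLinearGroup n k} {d : n → k} (hb : b.1 = diagonal d) (i : n)
    (x : SpecialLinearGroup n k) : (b * x).1 i = d i • x.1 i := by
  funext c
  change (b.1 * x.1) i c = _
  rw [hb, diagonal_mul]
  rfl

theorem dg_comm {b c : SpecialLinearGroup n k} {d e : n → k} (hb : b.1 = diagonal d)
    (hc : c.1 = diagonal e) : Commute b c := by
  apply Subtype.ext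
  change b.1 * c.1 = c.1 * b.1
  rw [hb, hc, diagonal_mul_diagonal, diagonal_mul_diagonal]
  exact congrArg diagonal (funext fun i => mul_comm _ _)

theorem dg_tv {i j : n} (hij : i ≠ j) {b : SpecialLinearGroup n k} {d : n → k}
    (hb : b.1 = diagonal d) (h : d i = d j) (s : k) : Commute b (tv hij s) := by
  have h1 := diag_tv hij hb (c := 1) (by rw [one_mul]; exact h) s
  rw [one_mul] at h1
  exact h1

/-- commuting root groups -/
theorem tv_comm {a b c d : n} (hab : a ≠ b) (hcd : c ≠ d) (hbc : b ≠ c) (had : a ≠ d) (s t : k) :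
    Commute (tv hab s : SpecialLinearGroup n k) (tv hcd t) := by
  apply Subtype.ext
  change transvection a b s * transvection c d t = transvection c d t * transvection a b s
  simp only [transvection, Matrix.mul_add, Matrix.add_mul, Matrix.mul_one, Matrix.one_mul]
  have e1 : (single a b s : Matrix n n k) * single c d t = 0 := by
    simp [Matrix.single_mul_single_of_ne, hbc]
  have e2 : (single c d t : Matrix n n k) * single a b s = 0 := by
    simp [Matrix.single_mul_single_of_ne, had.symm]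
  rw [e1, e2, add_zero, add_zero]
  abel

/-- the short root element `1 + s E_ab + e s E_b'a'` -/
def sh {a b a' b' : n} (hab : a ≠ b) (hba' : b' ≠ a') (e : k) (s : k) : SpecialLinearGroup n k :=
  tv hab s * tv hba' (e * s)

section short

variable {a b a' b' : n} (hab : a ≠ b) (hba' : b' ≠ a') (e : k)

theorem sh_row₁ (hab' : a ≠ b') (hbb' : b ≠ b') (s : k) (x : SpecialLinearGroup n k) :
    (sh hab hba' e s * x).1 a = x.1 a + s • x.1 b := by
  rw [sh, mul_assoc, tv_row_same, tv_row_ne hba' _ hab', tv_row_ne hba' _ hbb']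

theorem sh_row₂ (hbb' : b ≠ b') (s : k) (x : SpecialLinearGroup n k) :
    (sh hab hba' e s * x).1 b = x.1 b := by
  rw [sh, mul_assoc, tv_row_ne hab _ hab.symm, tv_row_ne hba' _ hbb']

theorem sh_add (hbb' : b ≠ b') (haa' : a ≠ a') (s t : k) :
    sh hab hba' e s * sh hab hba' e t = sh hab hba' e (s + t) := by
  have h := tv_comm hab hba' hbb' haa' t (e * s)
  have h' : tv hba' (e * s) * tv hab t = tv hab t * tv hba' (e * s) := h.symm
  calc sh hab hba' e s * sh hab hba' e t
      = tv hab s * (tv hba' (e * s) * tv hab t) * tv hba' (e * t) := by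
        simp only [sh, mul_assoc]
    _ = (tv hab s * tv hab t) * (tv hba' (e * s) * tv hba' (e * t)) := by
        rw [h']
        simp only [mul_assoc]
    _ = _ := by rw [tv_add, tv_add, sh, mul_add]

theorem sh_zero : sh hab hba' e 0 = 1 := by
  rw [sh, mul_zero, tv_zero, tv_zero, mul_one]

theorem sh_inv (hbb' : b ≠ b') (haa' : a ≠ a') (s : k) :
    (sh hab hba' e s)⁻¹ = sh hab hba' e (-s) := by
  rw [inv_eq_iff_mul_eq_one, sh_add hab hba' e hbb' haa', add_neg_cancel, sh_zero]

theorem sh_sub (hbb' : b ≠ b') (haa' : a ≠ a') (s t : k) :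
    sh hab hba' e s * (sh hab hba' e t)⁻¹ = sh hab hba' e (s - t) := by
  rw [sh_inv hab hba' e hbb' haa', sh_add hab hba' e hbb' haa', sub_eq_add_neg]

theorem continuous_sh : Continuous fun s : k => sh hab hba' e s := by
  have h1 := continuous_tv (k := k) hab
  have h2 : Continuous fun s : k => (tv hba' (e * s) : SpecialLinearGroup n k) :=
    (continuous_tv (k := k) hba').comp (continuous_const.mul continuous_id)
  exact h1.mul h2

theorem diag_sh {g : SpecialLinearGroup n k} {d : n → k} (hg : g.1 = diagonal d) {c : k}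
    (h1 : d a = c * d b) (h2 : d b' = c * d a') (s : k) :
    g * sh hab hba' e s = sh hab hba' e (c * s) * g := by
  have e1 : c * (e * s) = e * (c * s) := by ring
  rw [sh, ← mul_assoc, diag_tv hab hg h1, mul_assoc, diag_tv hba' hg h2, e1, ← mul_assoc]
  rfl

theorem dg_sh {g : SpecialLinearGroup n k} {d : n → k} (hg : g.1 = diagonal d)
    (h1 : d a = d b) (h2 : d b' = d a') (s : k) : Commute g (sh hab hba' e s) := by
  have h := diag_sh hab hba' e hg (c := 1) (by rw [one_mul]; exact h1)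
    (by rw [one_mul]; exact h2) s
  rw [one_mul] at h
  exact h

theorem sh_entry (hbb' : b ≠ b') (haa' : a ≠ a') (hab' : a ≠ b') (s : k) :
    (sh hab hba' e s).1 a b = s := by
  have h := congrFun (sh_row₁ hab hba' e hab' hbb' s 1) b
  rw [mul_one] at h
  rw [h]
  change (1 : Matrix n n k) a b + s * (1 : Matrix n n k) b b = s
  rw [one_apply_ne hab, one_apply_eq, zero_add, mul_one]

end short

end mat

end Vale.Agent.P092.H534.SpK
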