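import Vale.Agent.P092.H534.Sp.Wall
import Vale.Agent.P092.H776.NG5

/-!
P092 (helper534), TEAM P, [P-NRM] part 6: the chains of length 2 of the two walls in any group `E` with
`ι : G →* E`, `a : E →* PGL_n(k)`, `a ∘ ι` the canonical map; `G ≤ SL_n(k)` contains the root groups of
two hyperbolic pairs of indices. (Quotients by central subgroups, factors of products.)
-/

set_option linter.all false

open Matrix Set Topology

namespace Vale.Agent.P092.H534.SpK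

open Vale.Agent.P092.H701 (RowPair HChain)
open Vale.Agent.P092.H368.SN (tv tv_coe tv_add tv_zero tv_inv tv_sub tv_entry continuous_tv diag_tv)
open Vale.Agent.P092.RC (PG)
open Vale.Agent.P092.H35 (mkP sp)
open Vale.Agent.P092.H387.Qt (ScK pp_quo)
open Vale.Agent.P092.H776.NE (continuous_glrow glrow_pos)

variable {k : Type} [NontriviallyNormedField k] {n : ℕ}

theorem tv_mrow_same {a b : Fin n} (h : a ≠ b) (t : k) (X : Matrix (Fin n) (Fin n) k) :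
    ((tv h t).1 * X) a = X a + t • X b := by
  funext c
  change (transvection a b t * X) a c = _
  rw [transvection_mul_apply_same]
  rfl

theorem tv_mrow_ne {a b : Fin n} (h : a ≠ b) (t : k) {c : Fin n} (hc : c ≠ a)
    (X : Matrix (Fin n) (Fin n) k) : ((tv h t).1 * X) c = X c := by
  funext d
  change (transvection a b t * X) c d = _
  rw [transvection_mul_apply_of_ne _ _ _ _ hc]

theorem sh_mrow₁ {a b a' b' : Fin n} (hab : a ≠ b) (hba' : b' ≠ a') (e : k) (hab' : a ≠ b')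
    (hbb' : b ≠ b') (s : k) (X : Matrix (Fin n) (Fin n) k) :
    ((sh hab hba' e s).1 * X) a = X a + s • X b := by
  change ((tv hab s).1 * (tv hba' (e * s)).1 * X) a = _
  rw [Matrix.mul_assoc, tv_mrow_same, tv_mrow_ne hba' _ hab', tv_mrow_ne hba' _ hbb']

theorem sh_mrow₂ {a b a' b' : Fin n} (hab : a ≠ b) (hba' : b' ≠ a') (e : k) (hbb' : b ≠ b') (s : k)
    (X : Matrix (Fin n) (Fin n) k) : ((sh hab hba' e s).1 * X) b = X b := by
  change ((tv hab s).1 * (tv hba' (e * s)).1 * X) b = _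
  rw [Matrix.mul_assoc, tv_mrow_ne hab _ hab.symm, tv_mrow_ne hba' _ hbb']

/-- Two rows with two one-parameter families in `G`. -/
structure Row2 (G : Subgroup (SpecialLinearGroup (Fin n) k)) (i j : Fin n) where
  up : k → G
  lo : k → G
  cu : Continuous up
  cl : Continuous lo
  u₁ : ∀ t (X : Matrix (Fin n) (Fin n) k), ((up t).1.1 * X) i = X i + t • X j
  u₂ : ∀ t (X : Matrix (Fin n) (Fin n) k), ((up t).1.1 * X) j = X j
  l₁ : ∀ t (X : Matrix (Fin n) (Fin n) k), ((lo t).1.1 * X) i = X i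
  l₂ : ∀ t (X : Matrix (Fin n) (Fin n) k), ((lo t).1.1 * X) j = X j + t • X i

namespace Row2

variable {G : Subgroup (SpecialLinearGroup (Fin n) k)} {i j : Fin n}

/-- the dual pair -/
def sw (R : Row2 G i j) : Row2 G j i where
  up := R.lo
  lo := R.up
  cu := R.cl
  cl := R.cu
  u₁ := R.l₂
  u₂ := R.l₁
  l₁ := R.u₂
  l₂ := R.u₁

/-- the row pair of `GL_n(k)` -/
def gl (R : Row2 G i j) : RowPair (GL (Fin n) k) k (Fin n → k) where
  ρ₁ x := x.1 i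
  ρ₂ x := x.1 j
  cont₁ := continuous_glrow i
  cont₂ := continuous_glrow j
  ne x := lt_max_of_lt_left (glrow_pos x i)
  up t := SpecialLinearGroup.toGL (R.up t).1
  lo t := SpecialLinearGroup.toGL (R.lo t).1
  cont_up := SpecialLinearGroup.continuous_toGL.comp (continuous_subtype_val.comp R.cu)
  cont_lo := SpecialLinearGroup.continuous_toGL.comp (continuous_subtype_val.comp R.cl)
  up₁ t x := R.u₁ t x.1
  up₂ t x := R.u₂ t x.1
  lo₁ t x := R.l₁ t x.1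
  lo₂ t x := R.l₂ t x.1

/-- the compact set -/
def K (R : Row2 G i j) : Set G := (R.up '' {t | ‖t‖ ≤ 1}) ∪ (R.lo '' {t | ‖t‖ ≤ 1})

theorem isCompact_K [ProperSpace k] (R : Row2 G i j) : IsCompact R.K := by
  have h : IsCompact {t : k | ‖t‖ ≤ 1} := by
    have e : {t : k | ‖t‖ ≤ 1} = Metric.closedBall 0 1 := by
      ext t
      simp
    rw [e]
    exact isCompact_closedBall 0 1
  exact (h.image R.cu).union (h.image R.cl)

theorem sck (R : Row2 G i j) : ScK R.gl (mkP k n) := by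
  intro z hz
  obtain ⟨c, hc⟩ := H35.mkP_one_iff.1 hz
  refine ⟨c, fun h0 => ?_, fun x => ?_, fun x => ?_⟩
  · have h1 := glrow_pos z i
    rw [hc, h0, zero_smul] at h1
    have h2 : (0 : Matrix (Fin n) (Fin n) k) i = 0 := rfl
    rw [h2, norm_zero] at h1
    exact lt_irrefl _ h1
  · change (x.1 * z.1) i = c • x.1 i
    rw [hc, Matrix.mul_smul, mul_one]
    rfl
  · change (x.1 * z.1) j = c • x.1 j
    rw [hc, Matrix.mul_smul, mul_one]
    rfl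

theorem gl_K (R : Row2 G i j) {y : PG k n} (hy : y ∈ mkP k n '' R.gl.K) :
    ∃ x ∈ R.K, sp k n x.1 = y := by
  obtain ⟨z, hz, rfl⟩ := hy
  rcases hz with ⟨t, ht, rfl⟩ | ⟨t, ht, rfl⟩
  · exact ⟨R.up t, Or.inl ⟨t, by simpa using ht, rfl⟩, rfl⟩
  · exact ⟨R.lo t, Or.inr ⟨t, by simpa using ht, rfl⟩, rfl⟩

/-- ping-pong in `PGL_n(k)` for the powers of a diagonal element of `G` -/
theorem pp (R : Row2 G i j) {g : G} {d : Fin n → k} (hg : g.1.1 = diagonal d)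
    (hd : ‖d j‖ < ‖d i‖) (p : ℕ) : ∃ N₀, ∀ N, N₀ ≤ N →
    ∃ (κ κ' : Fin p → G) (Bm Bp : Fin p → Set (PG k n)),
      (∀ l, κ l ∈ R.K) ∧ (∀ l, κ' l ∈ R.K) ∧
      (∀ l, @MeasurableSet _ (borel (PG k n)) (Bm l)) ∧
      (∀ l, @MeasurableSet _ (borel (PG k n)) (Bp l)) ∧
      (∀ l l', l ≠ l' → Disjoint (Bm l) (Bm l')) ∧
      (∀ l l', l ≠ l' → Disjoint (Bp l) (Bp l')) ∧
      ∀ l x, x ∉ Bm l → sp k n (κ l * g ^ N * κ' l).1 * x ∈ Bp l := by
  letI : MeasurableSpace (PG k n) := borel _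
  haveI : BorelSpace (PG k n) := ⟨rfl⟩
  have hα : 0 < ‖d i‖ := (norm_nonneg _).trans_lt hd
  have hrow : ∀ (l : Fin n) (N : ℕ) (x : GL (Fin n) k),
      (SpecialLinearGroup.toGL (g ^ N).1 * x).1 l = d l ^ N • x.1 l := fun l N x =>
    H776.NE.diag_row g.1 hg N l x
  have hlim : ∀ C : ℝ, ∃ N₀, ∀ N : ℕ, N₀ ≤ N → C * ‖d j ^ N‖ ≤ ‖d i ^ N‖ := by
    intro C
    obtain ⟨r, hr⟩ : ∃ r : ℝ, r = ‖d j‖ / ‖d i‖ := ⟨_, rfl⟩
    have hr0 : 0 ≤ r := by rw [hr]; positivity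
    have hr1 : r < 1 := by rw [hr, div_lt_one hα]; exact hd
    obtain ⟨N₀, hN₀⟩ := exists_pow_lt_of_lt_one (show (0 : ℝ) < 1 / (|C| + 1) by positivity) hr1
    refine ⟨N₀, fun N hN => ?_⟩
    have h1 : r ^ N ≤ 1 / (|C| + 1) := (pow_le_pow_of_le_one hr0 hr1.le hN).trans hN₀.le
    have h2 : (|C| + 1) * r ^ N ≤ 1 := by
      have := mul_le_mul_of_nonneg_left h1 (show (0 : ℝ) ≤ |C| + 1 by positivity)
      rwa [mul_one_div_cancel (by positivity)] at this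
    have h3 : ‖d j‖ ^ N = r ^ N * ‖d i‖ ^ N := by
      rw [← mul_pow, hr, div_mul_cancel₀ _ hα.ne']
    rw [norm_pow, norm_pow, h3]
    have h4 : 0 ≤ ‖d i‖ ^ N := by positivity
    have h5 : 0 ≤ r ^ N := pow_nonneg hr0 N
    calc C * (r ^ N * ‖d i‖ ^ N) = (C * r ^ N) * ‖d i‖ ^ N := by ring
      _ ≤ 1 * ‖d i‖ ^ N := by
          refine mul_le_mul_of_nonneg_right ?_ h4
          have := le_abs_self C
          nlinarith
      _ = _ := one_mul _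
  obtain ⟨N₀, hN⟩ := pp_quo (π := mkP k n) R.sck (QuotientGroup.isQuotientMap_mk _)
    (fun N => SpecialLinearGroup.toGL (g ^ N).1) (fun N => d i ^ N) (fun N => d j ^ N)
    (fun N x => hrow i N x) (fun N x => hrow j N x)
    (fun N => pow_ne_zero _ (norm_pos_iff.1 hα)) hlim p
  refine ⟨N₀, fun N hN' => ?_⟩
  obtain ⟨κ, κ', Bm, Bp, h1, h2, h3, h4, h5, h6, h7⟩ := hN N hN'
  have h1' := fun l => R.gl_K (h1 l)
  have h2' := fun l => R.gl_K (h2 l)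
  choose s hs1 hs2 using h1'
  choose s' hs1' hs2' using h2'
  refine ⟨s, s', Bm, Bp, hs1, hs1', h3, h4, h5, h6, fun l x hx => ?_⟩
  have := h7 l x hx
  rw [← hs2, ← hs2'] at this
  change sp k n ((s l).1 * (g ^ N).1 * (s' l).1) * x ∈ Bp l
  rw [map_mul, map_mul]
  exact this

end Row2

section che

variable {G : Subgroup (SpecialLinearGroup (Fin n) k)} {E : Type} [Group E]
  [TopologicalSpace E] [MeasurableSpace E] [BorelSpace E] [ProperSpace k]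
  {i j i' j' : Fin n}

/-- **A chain of length 2 of `E`.** -/
noncomputable def chE2 (ι : G →* E) (a : E →* PG k n) (hι : Continuous ι) (ha : Continuous a)
    (hcomp : ∀ g, a (ι g) = sp k n g.1) (R₀ : Row2 G i j) (R₁ : Row2 G i' j') {g₀ g₁ : G}
    {d₀ d₁ : Fin n → k} (hg₀ : g₀.1.1 = diagonal d₀) (hg₁ : g₁.1.1 = diagonal d₁)
    (h₀ : ‖d₀ j‖ < ‖d₀ i‖) (h₁ : ‖d₁ j'‖ < ‖d₁ i'‖) (hb : Commute g₀ g₁)
    (hu : ∀ t, Commute g₀ (R₁.up t)) (hl : ∀ t, Commute g₀ (R₁.lo t)) : HChain E 2 where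
  b := fun l N => ι (![g₀, g₁] l) ^ N
  K := fun l => ι '' (![R₀.K, R₁.K] l)
  compact := fun l => by
    fin_cases l
    · exact R₀.isCompact_K.image hι
    · exact R₁.isCompact_K.image hι
  comm_b := fun l m hlm N M => by
    fin_cases l <;> fin_cases m <;> first | exact absurd hlm (by decide) |
      exact (hb.map ι).pow_pow N M
  comm_K := by
    intro l m hlm N x hx
    fin_cases l <;> fin_cases m <;> first | exact absurd hlm (by decide) | skip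
    obtain ⟨y, hy, rfl⟩ := hx
    rcases hy with ⟨t, -, rfl⟩ | ⟨t, -, rfl⟩
    · exact ((hu t).map ι).pow_left N
    · exact ((hl t).map ι).pow_left N
  pp := by
    intro l p
    letI : MeasurableSpace (PG k n) := borel _
    haveI : BorelSpace (PG k n) := ⟨rfl⟩
    have key : ∀ {i j : Fin n} (R : Row2 G i j) {g : G} {d : Fin n → k}, g.1.1 = diagonal d →
        ‖d j‖ < ‖d i‖ → ∃ N₀, ∀ N, N₀ ≤ N →
        ∃ (κ κ' : Fin p → E) (Bm Bp : Fin p → Set E),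
          (∀ l, κ l ∈ ι '' R.K) ∧ (∀ l, κ' l ∈ ι '' R.K) ∧
          (∀ l, MeasurableSet (Bm l)) ∧ (∀ l, MeasurableSet (Bp l)) ∧
          (∀ l l', l ≠ l' → Disjoint (Bm l) (Bm l')) ∧
          (∀ l l', l ≠ l' → Disjoint (Bp l) (Bp l')) ∧
          ∀ l x, x ∉ Bm l → κ l * ι g ^ N * κ' l * x ∈ Bp l := by
      intro i j R g d hg hd
      obtain ⟨N₀, hN⟩ := R.pp hg hd p
      refine ⟨N₀, fun N hN' => ?_⟩
      obtain ⟨κ, κ', Bm, Bp, h1, h2, h3, h4, h5, h6, h7⟩ := hN N hN'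
      refine ⟨fun l => ι (κ l), fun l => ι (κ' l), fun l => a ⁻¹' Bm l,
        fun l => a ⁻¹' Bp l, fun l => ⟨_, h1 l, rfl⟩, fun l => ⟨_, h2 l, rfl⟩,
        fun l => ha.measurable (h3 l), fun l => ha.measurable (h4 l),
        fun l l' hl => (h5 l l' hl).preimage _, fun l l' hl => (h6 l l' hl).preimage _,
        fun l z hz => ?_⟩
      change a (ι (κ l) * ι g ^ N * ι (κ' l) * z) ∈ Bp l
      rw [← map_pow, ← map_mul, ← map_mul, map_mul, hcomp]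
      exact h7 l (a z) hz
    fin_cases l
    · exact key R₀ hg₀ h₀
    · exact key R₁ hg₁ h₁

theorem exists_chE2 (ι : G →* E) (a : E →* PG k n) (hι : Continuous ι) (ha : Continuous a)
    (hcomp : ∀ g, a (ι g) = sp k n g.1) (R₀ : Row2 G i j) (R₁ : Row2 G i' j') {g₀ g₁ : G}
    {d₀ d₁ : Fin n → k} (hg₀ : g₀.1.1 = diagonal d₀) (hg₁ : g₁.1.1 = diagonal d₁)
    (h₀ : ‖d₀ j‖ < ‖d₀ i‖) (h₁ : ‖d₁ j'‖ < ‖d₁ i'‖) (hb : Commute g₀ g₁)
    (hu : ∀ t, Commute g₀ (R₁.up t)) (hl : ∀ t, Commute g₀ (R₁.lo t)) :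
    ∃ C : HChain E 2, ∀ N, C.b ⟨0, two_pos⟩ N = ι g₀ ^ N :=
  ⟨chE2 ι a hι ha hcomp R₀ R₁ hg₀ hg₁ h₀ h₁ hb hu hl, fun N => rfl⟩

theorem dg_inv {g : SpecialLinearGroup (Fin n) k} {d : Fin n → k} (hg : g.1 = diagonal d) :
    (g⁻¹).1 = diagonal fun i => (d i)⁻¹ := by
  have h1 : g.1 * (diagonal fun i => (d i)⁻¹) = 1 := by
    rw [hg, diagonal_mul_diagonal, ← diagonal_one]
    congr 1
    funext i
    exact mul_inv_cancel₀ (dg_ne hg i)
  have h2 : (g⁻¹).1 * g.1 = 1 := congrArg Subtype.val (inv_mul_cancel g)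
  calc (g⁻¹).1 = (g⁻¹).1 * (g.1 * (diagonal fun i => (d i)⁻¹)) := by rw [h1, Matrix.mul_one]
    _ = _ := by rw [← Matrix.mul_assoc, h2, Matrix.one_mul]

/-- both directions -/
theorem exists_chE2' (ι : G →* E) (a : E →* PG k n) (hι : Continuous ι) (ha : Continuous a)
    (hcomp : ∀ g, a (ι g) = sp k n g.1) (R₀ : Row2 G i j) (R₁ : Row2 G i' j') {g₀ g₁ : G}
    {d₀ d₁ : Fin n → k} (hg₀ : g₀.1.1 = diagonal d₀) (hg₁ : g₁.1.1 = diagonal d₁)
    (h₀ : ‖d₀ j‖ < ‖d₀ i‖) (h₁ : ‖d₁ j'‖ < ‖d₁ i'‖) (hb : Commute g₀ g₁)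
    (hu : ∀ t, Commute g₀ (R₁.up t)) (hl : ∀ t, Commute g₀ (R₁.lo t)) :
    (∃ C : HChain E 2, ∀ N, C.b ⟨0, two_pos⟩ N = ι g₀ ^ N) ∧
      ∃ C : HChain E 2, ∀ N, C.b ⟨0, two_pos⟩ N = (ι g₀)⁻¹ ^ N := by
  refine ⟨exists_chE2 ι a hι ha hcomp R₀ R₁ hg₀ hg₁ h₀ h₁ hb hu hl, ?_⟩
  rw [← map_inv]
  have hg₀' : (g₀⁻¹).1.1 = diagonal fun i => (d₀ i)⁻¹ := dg_inv hg₀
  refine exists_chE2 ι a hι ha hcomp R₀.sw R₁ hg₀' hg₁ ?_ h₁ hb.inv_left
    (fun t => (hu t).inv_left) fun t => (hl t).inv_left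
  rw [norm_inv, norm_inv]
  exact inv_strictAnti₀ (norm_pos_iff.2 (dg_ne hg₀ j)) h₀

variable {a' b b' x : Fin n} {e f h : k}

/-- the long root rows -/
noncomputable def lr2 {i j : Fin n} (hij : i ≠ j) (h1 : ∀ s, tv hij s ∈ G)
    (h2 : ∀ s, tv hij.symm s ∈ G) : Row2 G i j where
  up s := ⟨tv hij s, h1 s⟩
  lo s := ⟨tv hij.symm s, h2 s⟩
  cu := (continuous_tv (k := k) hij).subtype_mk _
  cl := (continuous_tv (k := k) hij.symm).subtype_mk _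
  u₁ t X := tv_mrow_same hij t X
  u₂ t X := tv_mrow_ne hij t hij.symm X
  l₁ t X := tv_mrow_ne hij.symm t hij X
  l₂ t X := tv_mrow_same hij.symm t X

/-- the short root rows -/
noncomputable def sr2 (R : RtG G x a' b b' e f h) : Row2 G x b where
  up s := ⟨sh R.ab R.ba' e s, R.sab s⟩
  lo s := ⟨sh R.ab.symm R.ba'.symm f s, R.sba s⟩
  cu := (continuous_sh R.ab R.ba' e).subtype_mk _
  cl := (continuous_sh R.ab.symm R.ba'.symm f).subtype_mk _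
  u₁ t X := sh_mrow₁ R.ab R.ba' e R.ab' R.bb t X
  u₂ t X := sh_mrow₂ R.ab R.ba' e R.bb t X
  l₁ t X := sh_mrow₂ R.ab.symm R.ba'.symm f R.aa t X
  l₂ t X := sh_mrow₁ R.ab.symm R.ba'.symm f R.ba R.aa t X

/-- **Point wall in `E`**: both chains with first direction `(ι g₀)^n`, `(ι g₀)^-n`. -/
theorem chain_ptE (ι : G →* E) (a : E →* PG k n) (hι : Continuous ι) (ha : Continuous a)
    (hcomp : ∀ g, a (ι g) = sp k n g.1) (R : RtG G x a' b b' e f h) {g₀ g₁ : G}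
    {d₀ d₁ : Fin n → k} (hg₀ : g₀.1.1 = diagonal d₀) (hg₁ : g₁.1.1 = diagonal d₁)
    (h₀ : ‖d₀ a'‖ < ‖d₀ x‖) (hb : d₀ b = d₀ b') (h₁ : ‖d₁ b'‖ < ‖d₁ b‖) :
    (∃ C : HChain E 2, ∀ N, C.b ⟨0, two_pos⟩ N = ι g₀ ^ N) ∧
      ∃ C : HChain E 2, ∀ N, C.b ⟨0, two_pos⟩ N = (ι g₀)⁻¹ ^ N :=
  exists_chE2' ι a hι ha hcomp (lr2 R.aa R.la R.la') (lr2 R.bb R.lb R.lb') hg₀ hg₁ h₀ h₁
    (comm_sub (dg_comm hg₀ hg₁)) (fun t => comm_sub (dg_tv R.bb hg₀ hb t))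
    fun t => comm_sub (dg_tv R.bb.symm hg₀ hb.symm t)

/-- **Line wall in `E`**: both chains with first direction `(ι g₀)^n`, `(ι g₀)^-n`. -/
theorem chain_lnE (ι : G →* E) (a : E →* PG k n) (hι : Continuous ι) (ha : Continuous a)
    (hcomp : ∀ g, a (ι g) = sp k n g.1) (R : RtG G x a' b b' e f h) {g₀ g₁ : G}
    {d₀ d₁ : Fin n → k} (hg₀ : g₀.1.1 = diagonal d₀) (hg₁ : g₁.1.1 = diagonal d₁)
    (h₀ : ‖d₀ a'‖ < ‖d₀ x‖) (hab : d₀ x = d₀ b) (hab' : d₀ b' = d₀ a')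
    (h₁ : ‖d₁ b‖ < ‖d₁ x‖) :
    (∃ C : HChain E 2, ∀ N, C.b ⟨0, two_pos⟩ N = ι g₀ ^ N) ∧
      ∃ C : HChain E 2, ∀ N, C.b ⟨0, two_pos⟩ N = (ι g₀)⁻¹ ^ N :=
  exists_chE2' ι a hι ha hcomp (lr2 R.aa R.la R.la') (sr2 R) hg₀ hg₁ h₀ h₁
    (comm_sub (dg_comm hg₀ hg₁)) (fun t => comm_sub (dg_sh R.ab R.ba' e hg₀ hab hab' t))
    fun t => comm_sub (dg_sh R.ab.symm R.ba'.symm f hg₀ hab.symm hab'.symm t)

end che

end Vale.Agent.P092.H534.SpK
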