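import Vale.Agent.P092.H515.Witt
import Vale.Agent.P092.H387.Qt1

/-!
P092 (helper534), TEAM P, [P-NRM] part 3: the system of gauges of a matrix group of isometries of a
form of Witt index at most `q` over a local field (helper515's `tgt_form`), with the comparison of its
gaps with all bounded Cartan decompositions; functions which are homomorphisms modulo scalars.
-/

set_option linter.all false

namespace Vale.Agent.P092.H534.SpK

open Matrix
open Vale.Agent.P092.H933 (LocK BCart gsys_gl)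
open Vale.Agent.P092.H515

section form
variable {G : Type} [Group G] {k : Type} [NontriviallyNormedField k]
  [ProperSpace k] {N q : ℕ} {m : G → Matrix (Fin N) (Fin N) k}

/-- **Isometry groups of forms of Witt index at most `q`**: the gauges, the `q` classes of gaps and
the comparison with the Cartan decompositions. -/
theorem form_sys (hk : LocK k) (hN : 0 < N) (h2q : 2 * q ≤ N)
    (hmul : ∀ g h, m (g * h) = m g * m h)
    {σ : k →+* k} (hσ : ∀ x, ‖σ x‖ = ‖x‖) {J : Matrix (Fin N) (Fin N) k} (hJ : J.det ≠ 0)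
    (hform : ∀ g, m g * J * ((m g).map σ)ᵀ = J)
    (hiso : ∀ v : Fin (q + 1) → Fin N → k, LinearIndependent k v →
      ∃ i j, v i ⬝ᵥ (J *ᵥ (fun l => σ (v j l))) ≠ 0) :
    ∃ (I : Type) (_ : Fintype I) (gp : I → G → ℝ) (w : G → ℝ) (cl : I → Fin q), GSys gp w ∧
      (∀ R : ℝ, ∃ R' : ℝ, ∀ i j, cl i = cl j → ∀ g, gp i g ≤ R → gp j g ≤ R') ∧
      (∀ R : ℝ, ∃ R' : ℝ, ∀ g, w g ≤ R → ∀ i j, ‖m g i j‖ ≤ R') ∧
      ∃ c C D : ℝ, 0 < c ∧ ∀ g, ∃ κ κi κ' κi' a, Dec C (m g) κ κi κ' κi' a ∧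
        (∀ i : Fin N, q ≤ i → Real.log ‖a i‖ ≤ D) ∧
        ∀ (i : Fin q), ∃ x : I, cl x = i ∧ c * (Real.log ‖a ⟨i, by omega⟩‖ -
          Real.log ‖a ⟨(i : ℕ) + 1, by omega⟩‖) - C ≤ gp x g := by
  obtain ⟨gp, w, c, C, hc, hs, hw, hcar⟩ := gsys_gl hk hN hmul
    (fun g => norm_det_form hσ hJ (hform g))
  have hC0 : 0 ≤ C := by
    obtain ⟨κ, κi, κ', κi', a, -, -, h1, -⟩ := hcar 1
    exact (norm_nonneg _).trans (h1 ⟨0, hN⟩ ⟨0, hN⟩).1
  have hdec : ∀ g, ∃ (κ κi κ' κi' : Matrix (Fin N) (Fin N) k) (a : Fin N → k),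
      Dec C (m g) κ κi κ' κi' a ∧ ∀ j : Fin (N - 1),
        |gp j g - c * (Real.log ‖a ⟨j, by have := j.2; omega⟩‖ -
          Real.log ‖a ⟨(j : ℕ) + 1, by have := j.2; omega⟩‖)| ≤ C := by
    intro g
    obtain ⟨κ, κi, κ', κi', a, h1, h2, h3, h4, h5, h6, h7⟩ := hcar g
    exact ⟨κ, κi, κ', κi', a, ⟨h1, h2, fun i j => (h3 i j).1, fun i j => (h3 i j).2.1,
      fun i j => (h3 i j).2.2.1, fun i j => (h3 i j).2.2.2, h6, h4, h5⟩, h7⟩
  -- bounds for the form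
  obtain ⟨B, hB0, hB⟩ : ∃ B : ℝ, 0 ≤ B ∧ ∀ i j, ‖J i j‖ ≤ B := by
    obtain ⟨B, hB0, hB⟩ := exists_le_all (I := Fin N × Fin N) fun p => ‖J p.1 p.2‖
    exact ⟨B, hB0, fun i j => hB (i, j)⟩
  obtain ⟨B', hB0', hB'⟩ : ∃ B : ℝ, 0 ≤ B ∧ ∀ i j, ‖J⁻¹ i j‖ ≤ B := by
    obtain ⟨B, hB0, hB⟩ := exists_le_all (I := Fin N × Fin N) fun p => ‖J⁻¹ p.1 p.2‖
    exact ⟨B, hB0, fun i j => hB (i, j)⟩
  have hJJ : J * J⁻¹ = 1 := Matrix.mul_nonsing_inv J (isUnit_iff_ne_zero.2 hJ)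
  -- symmetry
  obtain ⟨C1, hC1⟩ : ∃ C1 : ℝ, C1 = (N * (N * (C * (N * (max B B' * C))))) *
    (N * (N * ((N * (max B B' * C)) * C))) := ⟨_, rfl⟩
  obtain ⟨L1, hL1⟩ : ∃ L1 : ℝ, ∀ g κ κi κ' κi' a, Dec C (m g) κ κi κ' κi' a → ∀ i : Fin N,
      |Real.log ‖a i‖ + Real.log ‖a (Fin.rev i)‖| ≤ L1 := by
    refine ⟨Real.log C1, fun g κ κi κ' κi' a h i => ?_⟩
    obtain ⟨h1, h2⟩ := h.symm_le hC0 hσ hJJ (le_max_of_le_left hB0 : 0 ≤ max B B')
      (fun i j => (hB i j).trans (le_max_left _ _))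
      (fun i j => (hB' i j).trans (le_max_right _ _)) (hform g) hC1 i
    have hp1 : 0 < ‖a i‖ := norm_pos_iff.2 (h.ne i)
    have hp2 : 0 < ‖a (Fin.rev i)‖ := norm_pos_iff.2 (h.ne _)
    rw [← Real.log_mul hp1.ne' hp2.ne']
    have hp : 0 < ‖a i‖ * ‖a (Fin.rev i)‖ := mul_pos hp1 hp2
    have hCp : 0 < C1 := by
      by_contra hneg
      have := mul_nonpos_of_nonpos_of_nonneg (not_lt.1 hneg) hp.le
      linarith
    rw [abs_le]
    constructor
    · have h3 := Real.log_le_log one_pos h1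
      rw [Real.log_one, Real.log_mul hCp.ne' hp.ne'] at h3
      linarith
    · exact Real.log_le_log hp h2
  -- boundedness beyond the Witt index
  obtain ⟨L2, hL2⟩ : ∃ L2 : ℝ, ∀ g κ κi κ' κi' a, Dec C (m g) κ κi κ' κi' a → ∀ i : Fin N,
      q ≤ i → Real.log ‖a i‖ ≤ L2 := by
    by_cases hq : q < N
    · obtain ⟨C2, hC2⟩ := exists_bound hq hσ hiso hC0
      refine ⟨Real.log (max C2 1), fun g κ κi κ' κi' a h i hi => ?_⟩
      refine Real.log_le_log (norm_pos_iff.2 (h.ne i)) ?_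
      refine le_trans ?_ (le_max_left _ _)
      exact (h.anti (show (⟨q, hq⟩ : Fin N) ≤ i from hi)).trans (hC2 _ _ _ _ _ a h (hform g))
    · exact ⟨0, fun g κ κi κ' κi' a h i hi => absurd (lt_of_le_of_lt hi i.2) hq⟩
  -- the classes
  obtain ⟨e, he⟩ : ∃ e : {i : Fin (N - 1) // min (i : ℕ) (N - 2 - i) < q} ↪ Fin (N - 1),
    e = Function.Embedding.subtype _ := ⟨_, rfl⟩
  have hgap : ∀ g (i : Fin (N - 1)), (¬ min (i : ℕ) (N - 2 - i) < q) →
      gp i g ≤ c * (2 * L2 + L1) + C := by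
    intro g i hi
    obtain ⟨κ, κi, κ', κi', a, h, hg⟩ := hdec g
    have h1 := (abs_le.1 (hg i)).2
    have hi2 := i.2
    have h2 := hL2 g κ κi κ' κi' a h ⟨i, by omega⟩ (by simp only; omega)
    have h3 := hL2 g κ κi κ' κi' a h (Fin.rev ⟨(i : ℕ) + 1, by omega⟩) (by
      rw [Fin.val_rev]; simp only; omega)
    have h4 := (abs_le.1 (hL1 g κ κi κ' κi' a h ⟨(i : ℕ) + 1, by omega⟩)).1
    have h5 : Real.log ‖a ⟨i, by omega⟩‖ - Real.log ‖a ⟨(i : ℕ) + 1, by omega⟩‖ ≤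
      2 * L2 + L1 := by linarith
    have h6 := mul_le_mul_of_nonneg_left h5 hc.le
    linarith
  have hcmp : ∀ g (i j : Fin (N - 1)), (i : ℕ) + j = N - 2 →
      gp j g ≤ gp i g + (2 * c * L1 + 2 * C) := by
    intro g i j hij
    obtain ⟨κ, κi, κ', κi', a, h, hg⟩ := hdec g
    have hi2 := i.2
    have hj2 := j.2
    have h1 := (abs_le.1 (hg i)).1
    have h2 := (abs_le.1 (hg j)).2
    have e1 : Fin.rev (⟨i, by omega⟩ : Fin N) = ⟨(j : ℕ) + 1, by omega⟩ := by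
      ext; rw [Fin.val_rev]; simp only; omega
    have e2 : Fin.rev (⟨(i : ℕ) + 1, by omega⟩ : Fin N) = ⟨j, by omega⟩ := by
      ext; rw [Fin.val_rev]; simp only; omega
    have h3 := (abs_le.1 (hL1 g κ κi κ' κi' a h ⟨i, by omega⟩)).1
    have h4 := (abs_le.1 (hL1 g κ κi κ' κi' a h ⟨(i : ℕ) + 1, by omega⟩)).2
    rw [e1] at h3
    rw [e2] at h4
    have h5 : Real.log ‖a ⟨j, by omega⟩‖ - Real.log ‖a ⟨(j : ℕ) + 1, by omega⟩‖ ≤
      Real.log ‖a ⟨i, by omega⟩‖ - Real.log ‖a ⟨(i : ℕ) + 1, by omega⟩‖ + 2 * L1 := by linarith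
    have h6 := mul_le_mul_of_nonneg_left h5 hc.le
    linarith
  have hc0 : 0 ≤ 2 * c * L1 + 2 * C := by
    have : 0 ≤ L1 := by
      obtain ⟨κ, κi, κ', κi', a, h, -⟩ := hdec 1
      exact (abs_nonneg _).trans (hL1 1 κ κi κ' κi' a h ⟨0, hN⟩)
    positivity
  refine ⟨{i : Fin (N - 1) // min (i : ℕ) (N - 2 - i) < q}, inferInstance, fun j => gp (e j), w,
    fun j => ⟨min (j : Fin (N - 1)) (N - 2 - j), j.2⟩, hs.restrict e
      (R0 := c * (2 * L2 + L1) + C) (fun j hj g => ?_), fun R => ?_, hw, c, C, L2, hc, fun g => ?_⟩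
  · refine hgap g j fun h => hj ⟨j, h⟩ ?_
    rw [he]
    rfl
  · refine ⟨R + (2 * c * L1 + 2 * C), fun i j hij g hg => ?_⟩
    rw [he] at hg ⊢
    have h1 : min ((i : Fin (N - 1)) : ℕ) (N - 2 - i) = min ((j : Fin (N - 1)) : ℕ) (N - 2 - j) :=
      congrArg Fin.val hij
    have hi2 := (i : Fin (N - 1)).2
    have hj2 := (j : Fin (N - 1)).2
    have h2 : (i : Fin (N - 1)) = j ∨ (((i : Fin (N - 1)) : ℕ) + ((j : Fin (N - 1)) : ℕ) = N - 2) := by
      by_cases h : ((i : Fin (N - 1)) : ℕ) = ((j : Fin (N - 1)) : ℕ)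
      · exact Or.inl (Fin.ext h)
      · right; omega
    rcases h2 with h2 | h2
    · change gp (j : Fin (N - 1)) g ≤ _
      rw [← h2]
      have hg' : gp (i : Fin (N - 1)) g ≤ R := hg
      linarith
    · have h3 := hcmp g i j h2
      have hg' : gp (i : Fin (N - 1)) g ≤ R := hg
      change gp (j : Fin (N - 1)) g ≤ _
      linarith
  · obtain ⟨κ, κi, κ', κi', a, h, hg⟩ := hdec g
    refine ⟨κ, κi, κ', κi', a, h, fun i hi => hL2 g κ κi κ' κi' a h i hi, fun i => ?_⟩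
    have hi := i.2
    refine ⟨⟨⟨i, by omega⟩, by simp only; omega⟩, Fin.ext (by simp only; omega), ?_⟩
    have h1 := (abs_le.1 (hg ⟨i, by omega⟩)).1
    rw [he]
    change _ ≤ gp (⟨i, by omega⟩ : Fin (N - 1)) g
    dsimp only at h1
    linarith

end form

/-! ### Homomorphisms modulo finite central subgroups -/

section ph

variable {Γ X : Type} [Group Γ] [Group X]

/-- the pairs `(γ, z * s γ)`, `z ∈ Z` -/
def ext (Z : Subgroup X) (hZ : Z ≤ Subgroup.center X) (s : Γ → X)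
    (hs : ∀ a b, ∃ z ∈ Z, s (a * b) = z * (s a * s b)) : Subgroup (Γ × X) where
  carrier := {p | ∃ z ∈ Z, p.2 = z * s p.1}
  one_mem' := by
    obtain ⟨z, hz, h⟩ := hs 1 1
    refine ⟨z, hz, ?_⟩
    rw [mul_one] at h
    have h1 : (1 : X) = z * s 1 := by
      have h2 : s 1 = (z * s 1) * s 1 := by rw [mul_assoc]; exact h
      exact (mul_eq_right.1 h2.symm).symm
    exact h1
  mul_mem' := by
    rintro p p' ⟨z, hz, h⟩ ⟨z', hz', h'⟩
    obtain ⟨y, hy, h2⟩ := hs p.1 p'.1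
    refine ⟨z * z' * y⁻¹, Z.mul_mem (Z.mul_mem hz hz') (Z.inv_mem hy), ?_⟩
    change p.2 * p'.2 = _ * s (p.1 * p'.1)
    have c' : ∀ x : X, x * z' = z' * x := fun x => Subgroup.mem_center_iff.1 (hZ hz') x
    rw [h2, h, h']
    calc z * s p.1 * (z' * s p'.1) = z * (s p.1 * z') * s p'.1 := by group
      _ = z * z' * (s p.1 * s p'.1) := by rw [c']; group
      _ = _ := by group
  inv_mem' := by
    rintro p ⟨z, hz, h⟩
    obtain ⟨y, hy, h2⟩ := hs p.1 p.1⁻¹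
    obtain ⟨y1, hy1, h3⟩ := hs 1 1
    have h1 : (1 : X) = y1 * s 1 := by
      rw [mul_one] at h3
      have h2' : s 1 = (y1 * s 1) * s 1 := by rw [mul_assoc]; exact h3
      exact (mul_eq_right.1 h2'.symm).symm
    have cy : ∀ x : X, x * y = y * x := fun x => Subgroup.mem_center_iff.1 (hZ hy) x
    have cy1 : ∀ x : X, x * y1 = y1 * x := fun x => Subgroup.mem_center_iff.1 (hZ hy1) x
    have cz : ∀ x : X, x * z⁻¹ = z⁻¹ * x := fun x =>
      Subgroup.mem_center_iff.1 (hZ (Z.inv_mem hz)) x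
    refine ⟨z⁻¹ * (y1 * y), Z.mul_mem (Z.inv_mem hz) (Z.mul_mem hy1 hy), ?_⟩
    change p.2⁻¹ = _ * s p.1⁻¹
    rw [mul_inv_cancel] at h2
    rw [h, _root_.mul_inv_rev, cz]
    have e : (s p.1)⁻¹ = y1 * y * s p.1⁻¹ := by
      rw [inv_eq_iff_mul_eq_one]
      calc s p.1 * (y1 * y * s p.1⁻¹) = (s p.1 * y1) * (y * s p.1⁻¹) := by group
        _ = y1 * (s p.1 * y) * s p.1⁻¹ := by rw [cy1]; group
        _ = y1 * (y * (s p.1 * s p.1⁻¹)) := by rw [cy]; group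
        _ = y1 * s 1 := by rw [← h2]
        _ = 1 := h1.symm
    rw [e]
    group

/-- **Systems of gauges along functions which are homomorphisms modulo a finite central subgroup.** -/
theorem gsys_ph {I : Type} [Fintype I] {gp : I → X → ℝ} {w : X → ℝ} (h : GSys gp w)
    (Z : Subgroup X) (hZ : Z ≤ Subgroup.center X) (hfin : Finite Z) (s : Γ → X)
    (hs : ∀ a b, ∃ z ∈ Z, s (a * b) = z * (s a * s b)) :
    ∃ w' : Γ → ℝ, GSys (fun j γ => gp j (s γ)) w' ∧ ∀ γ, w (s γ) ≤ w' γ := by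
  classical
  obtain ⟨E, hE⟩ : ∃ E : Subgroup (Γ × X), E = ext Z hZ s hs := ⟨_, rfl⟩
  obtain ⟨φ, hφ⟩ : ∃ φ : E →* X, φ = (MonoidHom.snd Γ X).comp E.subtype := ⟨_, rfl⟩
  obtain ⟨π, hπ⟩ : ∃ π : E →* Γ, π = (MonoidHom.fst Γ X).comp E.subtype := ⟨_, rfl⟩
  have hmem' : ∀ p ∈ E, ∃ z ∈ Z, p.2 = z * s p.1 := fun p hp => by
    rw [hE] at hp
    exact hp
  have hmem : ∀ p : E, ∃ z ∈ Z, p.1.2 = z * s p.1.1 := fun p => hmem' p.1 p.2
  have hsec : ∀ γ, (γ, s γ) ∈ E := fun γ => by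
    rw [hE]
    exact ⟨1, Z.one_mem, (one_mul _).symm⟩
  have h1 : (1 : X) ∈ Z := Z.one_mem
  have hs1 : s 1 ∈ Z := by
    obtain ⟨z, hz, h⟩ := hs 1 1
    rw [mul_one] at h
    have h2 : s 1 = (z * s 1) * s 1 := by rw [mul_assoc]; exact h
    have h3 : z * s 1 = 1 := mul_eq_right.1 h2.symm
    rw [← inv_eq_iff_mul_eq_one.2 h3]
    exact Z.inv_mem hz
  -- the kernel
  have hker : ∀ p : E, π p = 1 → p.1.1 = 1 ∧ p.1.2 ∈ Z := fun p hp => by
    have e : p.1.1 = 1 := by rw [hπ] at hp; exact hp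
    obtain ⟨z, hz, h⟩ := hmem p
    refine ⟨e, ?_⟩
    rw [h, e]
    exact Z.mul_mem hz hs1
  have hkf : Finite π.ker := by
    refine Finite.of_injective (β := Z) (fun p => ⟨p.1.1.2, (hker p.1 p.2).2⟩) ?_
    intro p p' hpp
    have e1 : p.1.1.2 = p'.1.1.2 := congrArg Subtype.val hpp
    apply Subtype.ext
    apply Subtype.ext
    exact Prod.ext ((hker p.1 p.2).1.trans (hker p'.1 p'.2).1.symm) e1
  have hkc : π.ker ≤ Subgroup.center E := fun p hp => by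
    rw [Subgroup.mem_center_iff]
    intro y
    obtain ⟨e1, e2⟩ := hker p hp
    apply Subtype.ext
    refine Prod.ext ?_ ?_
    · change y.1.1 * p.1.1 = p.1.1 * y.1.1
      rw [e1, mul_one, one_mul]
    · exact Subgroup.mem_center_iff.1 (hZ e2) y.1.2
  have : Fintype π.ker := Fintype.ofFinite _
  have hs' : ∀ γ, π ⟨(γ, s γ), hsec γ⟩ = γ := fun γ => by rw [hπ]; rfl
  have hq := H387.Qt.gsys_quo (π := π) (Z := π.ker) (h.comap φ) rfl hkc
    (fun γ => ⟨(γ, s γ), hsec γ⟩) hs'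
  have hφs : ∀ γ, φ ⟨(γ, s γ), hsec γ⟩ = s γ := fun γ => by rw [hφ]; rfl
  refine ⟨_, by simpa only [hφs] using hq, fun γ => ?_⟩
  have h3 := Finset.single_le_sum (f := fun z : π.ker =>
    w (φ (⟨(γ, s γ), hsec γ⟩ * (z : E)))) (fun z _ => (h.pos _).le)
    (Finset.mem_univ (1 : π.ker))
  have e : w (φ (⟨(γ, s γ), hsec γ⟩ * ((1 : π.ker) : E))) = w (s γ) := by
    rw [Subgroup.coe_one, mul_one, hφs]
  rw [e] at h3
  exact h3

end ph

end Vale.Agent.P092.H534.SpK
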