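import Vale.Agent.P092.H534.Sp.Chain

/-!
P092 (helper534), TEAM P, [P-NRM] part 2, [P-ORB]: the two walls of `Sp_4(k)` in any subgroup `G` of
`SL_n(k)` which contains the root groups of two hyperbolic pairs `a, a'`, `b, b'` of indices:
chains of length 2 whose first direction is the wall element or its inverse; spreading of the root
groups.
-/

set_option linter.all false

open Matrix Set Topology MeasureTheory

namespace Vale.Agent.P092.H534.SpK

open Vale.Agent.P092.H701 (RowPair HChain)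
open Vale.Agent.P092.H368.SN (tv tv_coe tv_add tv_zero tv_inv tv_sub tv_entry continuous_tv diag_tv
  Spr spr_of md prop_comp)

variable {k : Type} [NontriviallyNormedField k] {n : Type} [Fintype n] [DecidableEq n]

/-- The root groups of two hyperbolic pairs `a, a'` and `b, b'` of indices: long roots
`1 + s E_aa'`, .., short roots `1 + s (E_ab + e E_b'a')`, `1 + s (E_ba + f E_a'b')`,
`1 + s (E_ab' + h E_ba')`. -/
structure RtG (G : Subgroup (SpecialLinearGroup n k)) (a a' b b' : n) (e f h : k) : Prop where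
  aa : a ≠ a'
  bb : b ≠ b'
  ab : a ≠ b
  ab' : a ≠ b'
  ba : b ≠ a'
  ba' : b' ≠ a'
  la : ∀ s, tv aa s ∈ G
  la' : ∀ s, tv aa.symm s ∈ G
  lb : ∀ s, tv bb s ∈ G
  lb' : ∀ s, tv bb.symm s ∈ G
  sab : ∀ s, sh ab ba' e s ∈ G
  sba : ∀ s, sh ab.symm ba'.symm f s ∈ G
  sab' : ∀ s, sh ab' ba h s ∈ G

section chains

variable {G : Subgroup (SpecialLinearGroup n k)} {a a' b b' : n} {e f h : k}

/-- the row pair of a long root -/
noncomputable def lrp {i j : n} (hij : i ≠ j) (h1 : ∀ s, tv hij s ∈ G)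
    (h2 : ∀ s, tv hij.symm s ∈ G) : RowPair G k (n → k) :=
  rp i j (fun s => ⟨tv hij s, h1 s⟩) (fun s => ⟨tv hij.symm s, h2 s⟩)
    ((continuous_tv (k := k) hij).subtype_mk _) ((continuous_tv (k := k) hij.symm).subtype_mk _)
    (fun t x => tv_row_same hij t x.1) (fun t x => tv_row_ne hij t hij.symm x.1)
    (fun t x => tv_row_ne hij.symm t hij x.1) (fun t x => tv_row_same hij.symm t x.1)

/-- the row pair of the short root -/
noncomputable def srp (R : RtG G a a' b b' e f h) : RowPair G k (n → k) :=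
  rp a b (fun s => ⟨sh R.ab R.ba' e s, R.sab s⟩) (fun s => ⟨sh R.ab.symm R.ba'.symm f s, R.sba s⟩)
    ((continuous_sh R.ab R.ba' e).subtype_mk _)
    ((continuous_sh R.ab.symm R.ba'.symm f).subtype_mk _)
    (fun t x => sh_row₁ R.ab R.ba' e R.ab' R.bb t x.1) (fun t x => sh_row₂ R.ab R.ba' e R.bb t x.1)
    (fun t x => sh_row₂ R.ab.symm R.ba'.symm f R.aa t x.1)
    (fun t x => sh_row₁ R.ab.symm R.ba'.symm f R.ba R.aa t x.1)

theorem sc_lrp {i j : n} (hij : i ≠ j) (h1 : ∀ s, tv hij s ∈ G) (h2 : ∀ s, tv hij.symm s ∈ G)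
    {g : G} {d : n → k} (hg : g.1.1 = diagonal d) (hd : ‖d j‖ < ‖d i‖) :
    Sc (lrp hij h1 h2) g (d i) (d j) :=
  ⟨hd, fun x => dg_row hg i x.1, fun x => dg_row hg j x.1⟩

theorem sc_srp (R : RtG G a a' b b' e f h) {g : G} {d : n → k} (hg : g.1.1 = diagonal d)
    (hd : ‖d b‖ < ‖d a‖) : Sc (srp R) g (d a) (d b) :=
  ⟨hd, fun x => dg_row hg a x.1, fun x => dg_row hg b x.1⟩

theorem dg_ne {g : SpecialLinearGroup n k} {d : n → k} (hg : g.1 = diagonal d) (i : n) :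
    d i ≠ 0 := by
  intro h0
  have h1 := g.2
  rw [hg, det_diagonal, Finset.prod_eq_zero (Finset.mem_univ i) h0] at h1
  exact zero_ne_one h1

theorem comm_sub {x y : G} (h : Commute x.1 y.1) : Commute x y := Subtype.ext h

variable [ProperSpace k] [MeasurableSpace G] [OpensMeasurableSpace G]

/-- **Point wall**: a chain of length 2 starting with `g₀ = diag(.. d_a .. d_a' ..)`, `d_b = d_b'`. -/
theorem chain_pt (R : RtG G a a' b b' e f h) {g₀ g₁ : G} {d₀ d₁ : n → k}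
    (hg₀ : g₀.1.1 = diagonal d₀) (hg₁ : g₁.1.1 = diagonal d₁) (h₀ : ‖d₀ a'‖ < ‖d₀ a‖)
    (hb : d₀ b = d₀ b') (h₁ : ‖d₁ b'‖ < ‖d₁ b‖) :
    (∃ C : HChain G 2, ∀ N, C.b ⟨0, two_pos⟩ N = g₀ ^ N) ∧
      ∃ C : HChain G 2, ∀ N, C.b ⟨0, two_pos⟩ N = g₀⁻¹ ^ N := by
  have s0 := sc_lrp R.aa R.la R.la' hg₀ h₀
  have s1 := sc_lrp R.bb R.lb R.lb' hg₁ h₁
  have c1 : Commute g₀ g₁ := comm_sub (dg_comm hg₀ hg₁)
  have c2 : ∀ t, Commute g₀ ((lrp R.bb R.lb R.lb').up t) := fun t =>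
    comm_sub (dg_tv R.bb hg₀ hb t)
  have c3 : ∀ t, Commute g₀ ((lrp R.bb R.lb R.lb').lo t) := fun t =>
    comm_sub (dg_tv R.bb.symm hg₀ hb.symm t)
  exact ⟨⟨chain2 _ _ s0 s1 c1 c2 c3, fun N => rfl⟩,
    ⟨chain2 _ _ (s0.inv (dg_ne hg₀ _)) s1 c1.inv_left (fun t => (c2 t).inv_left)
      fun t => (c3 t).inv_left, fun N => rfl⟩⟩

/-- **Line wall**: a chain of length 2 starting with `g₀ = diag(.. d_a .. d_a' ..)`, `d_b = d_a`,
`d_b' = d_a'`. -/
theorem chain_ln (R : RtG G a a' b b' e f h) {g₀ g₁ : G} {d₀ d₁ : n → k}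
    (hg₀ : g₀.1.1 = diagonal d₀) (hg₁ : g₁.1.1 = diagonal d₁) (h₀ : ‖d₀ a'‖ < ‖d₀ a‖)
    (hab : d₀ a = d₀ b) (hab' : d₀ b' = d₀ a') (h₁ : ‖d₁ b‖ < ‖d₁ a‖) :
    (∃ C : HChain G 2, ∀ N, C.b ⟨0, two_pos⟩ N = g₀ ^ N) ∧
      ∃ C : HChain G 2, ∀ N, C.b ⟨0, two_pos⟩ N = g₀⁻¹ ^ N := by
  have s0 := sc_lrp R.aa R.la R.la' hg₀ h₀
  have s1 := sc_srp R hg₁ h₁
  have c1 : Commute g₀ g₁ := comm_sub (dg_comm hg₀ hg₁)
  have c2 : ∀ t, Commute g₀ ((srp R).up t) := fun t =>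
    comm_sub (dg_sh R.ab R.ba' e hg₀ hab hab' t)
  have c3 : ∀ t, Commute g₀ ((srp R).lo t) := fun t =>
    comm_sub (dg_sh R.ab.symm R.ba'.symm f hg₀ hab.symm hab'.symm t)
  exact ⟨⟨chain2 _ _ s0 s1 c1 c2 c3, fun N => rfl⟩,
    ⟨chain2 _ _ (s0.inv (dg_ne hg₀ _)) s1 c1.inv_left (fun t => (c2 t).inv_left)
      fun t => (c3 t).inv_left, fun N => rfl⟩⟩

end chains

/-! ### Spreading of the root groups -/

section spr

variable {G : Subgroup (SpecialLinearGroup n k)} [ProperSpace k] [MeasurableSpace k]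
  [BorelSpace k] {μ : Measure k} [μ.IsAddHaarMeasure] {E : Type} [Group E] [TopologicalSpace E]
  {p : G →* E}

theorem cent (i j : n) : Continuous fun x : G => x.1.1 i j :=
  (continuous_apply j).comp (continuous_row i)

/-- properness of a one-parameter family with an entry equal to the parameter -/
theorem prop_of {u : k → G} {i j : n} (hu : ∀ s, (u s).1.1 i j = s) (C : Set G) (hC : IsCompact C) :
    ∃ r : ℝ, ∀ s : k, u s ∈ C → ‖s‖ ≤ r := by
  obtain ⟨r, hr⟩ := hC.exists_bound_of_continuousOn (cent (G := G) i j).continuousOn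
  exact ⟨r, fun s hs => by
    have := hr _ hs
    rwa [hu] at this⟩

/-- **Long root groups**: `d_i = w⁻¹ d_j`. -/
theorem spr_long (hp : ∀ C : Set E, IsCompact C → ∃ C' : Set G, IsCompact C' ∧ p ⁻¹' C ⊆ C')
    {i j : n} (hij : i ≠ j) (hG : ∀ s, tv hij s ∈ G) {g : G} {d : n → k}
    (hg : g.1.1 = diagonal d) (w : kˣ) (hd : d i = ((w⁻¹ : kˣ) : k) * d j) :
    Spr μ (p g) (fun s => p ⟨tv hij s, hG s⟩) (md w) := by
  refine spr_of w (fun s t => ?_) (fun s => ?_) (prop_comp hp (prop_of (i := i) (j := j)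
    fun s => tv_entry hij s))
  · rw [← map_inv, ← map_mul]
    exact congrArg p (Subtype.ext (tv_sub hij s t))
  · rw [← map_mul, ← map_mul]
    exact congrArg p (Subtype.ext (diag_tv hij hg hd s))

/-- **Short root groups**: `d_a = w⁻¹ d_b`, `d_b' = w⁻¹ d_a'`. -/
theorem spr_short (hp : ∀ C : Set E, IsCompact C → ∃ C' : Set G, IsCompact C' ∧ p ⁻¹' C ⊆ C')
    {a b a' b' : n} (hab : a ≠ b) (hba' : b' ≠ a') (hbb' : b ≠ b') (haa' : a ≠ a')
    (hab' : a ≠ b') {e : k} (hG : ∀ s, sh hab hba' e s ∈ G) {g : G} {d : n → k}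
    (hg : g.1.1 = diagonal d) (w : kˣ) (h1 : d a = ((w⁻¹ : kˣ) : k) * d b)
    (h2 : d b' = ((w⁻¹ : kˣ) : k) * d a') :
    Spr μ (p g) (fun s => p ⟨sh hab hba' e s, hG s⟩) (md w) := by
  refine spr_of w (fun s t => ?_) (fun s => ?_) (prop_comp hp (prop_of (i := a) (j := b)
    fun s => sh_entry hab hba' e hbb' haa' hab' s))
  · rw [← map_inv, ← map_mul]
    exact congrArg p (Subtype.ext (sh_sub hab hba' e hbb' haa' s t))
  · rw [← map_mul, ← map_mul]
    exact congrArg p (Subtype.ext (diag_sh hab hba' e hg h1 h2 s))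

end spr

end Vale.Agent.P092.H534.SpK
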